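import Vale.Agent.P216.DV706.TInst
import Vale.Agent.P216.B633.WOp

/-!
# Operators `WOp` from equivariant maps (Theorem B, `n = 1 (mod 4)`)

A map `f : X s → X t` which commutes with the deck transformation and with the rotation by `1 / p`
acts on the Gysin sequences of the levels.
-/

open Set

namespace Vale.Agent.P216.DV

open Vale.Agent.P216.AS

section

variable {E : Type} [PseudoMetricSpace E] {k : Type} [Field k] {I : Type} {p : ℕ}
  (Y : Sym E k I p) {f : E → E} {X X' : Set E}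

theorem iterate_comm (hg : MapsTo Y.g X X) (hr : ∀ x ∈ X, f (Y.g x) = Y.g (f x)) (i : ℕ) {x : E}
    (hx : x ∈ X) : f (Y.g^[i] x) = Y.g^[i] (f x) := by
  induction i generalizing x with
  | zero => rfl
  | succ i ih => rw [Function.iterate_succ_apply, Function.iterate_succ_apply, ih (hg hx), hr x hx]

/-- `f^*` commutes with `∑ b i gⁱ` on the tuples of `X`. -/
theorem sumK_pbK (hg : MapsTo Y.g X X) (hr : ∀ x ∈ X, f (Y.g x) = Y.g (f x)) (b : ℕ → k) {n : ℕ}
    (c : (ASK E k).K n) {x : Fin (n + 1) → E} (hx : ∀ i, x i ∈ X) :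
    sumK Y b n (pbK k f n c) x = pbK k f n (sumK Y b n c) x := by
  have h1 : ∀ c : (ASK E k).K n, ∀ y : Fin (n + 1) → E,
      sumK Y b n c y = ∑ i ∈ Finset.range p, b i * c ((Y.g^[i]) ∘ y) := by
    intro c y
    rw [sumK_apply]
    change (∑ i ∈ Finset.range p, b i • (Y.gK n ^ i) c : (Fin (n + 1) → E) → k) y = _
    rw [Finset.sum_apply]
    refine Finset.sum_congr rfl fun i _ => ?_
    have h3 : (Y.gK n ^ i) c = pbK k (Y.g^[i]) n c := pbK_pow Y.g n i c
    rw [h3]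
    rfl
  rw [h1]
  change _ = sumK Y b n c (f ∘ x)
  rw [h1]
  refine Finset.sum_congr rfl fun i _ => ?_
  change b i * c (f ∘ (Y.g^[i] ∘ x)) = b i * c (Y.g^[i] ∘ (f ∘ x))
  have h4 : f ∘ (Y.g^[i] ∘ x) = Y.g^[i] ∘ (f ∘ x) :=
    funext fun j => iterate_comm Y hg hr i (hx j)
  rw [h4]

theorem mem_Zr_of_zero (h : Y.Good X) {n : ℕ} {c : (ASK E k).K n}
    (hc : ∀ x : Fin (n + 1) → E, (∀ i, x i ∈ X) → c x = 0) : c ∈ (Zr Y.a Y.χ X X).S n :=
  ⟨fun i x hx => by
    have h3 : c (Y.a i ∘ x) = 0 := hc _ fun j => h.ma i (hx j)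
    rw [hc x hx, h3, mul_zero], 1, one_pos, fun x hx => hc x hx.1⟩

/-- Equivariant maps give maps of pairs. -/
theorem isGMor_pbK (h : Y.Good X) (h' : Y.Good X') (hf : IsMap Y.a Y.a X X' f)
    (hr : ∀ x ∈ X, f (Y.g x) = Y.g (f x)) : IsGMor (Sym.PA h') (Sym.PA h) (pbK k f) where
  toIsMor := hf.isMor_Cc Subset.rfl hf.mapsX
  comm_g {n c} _ := mem_Zr_of_zero Y h fun x hx => by
    change c (f ∘ (Y.g ∘ x)) - c (Y.g ∘ (f ∘ x)) = 0
    have h4 : f ∘ (Y.g ∘ x) = Y.g ∘ (f ∘ x) := funext fun j => hr _ (hx j)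
    rw [h4, sub_self]
  comm_nm {n c} _ := mem_Zr_of_zero Y h fun x hx => by
    have h1 : ∀ c : (ASK E k).K n, H609.nm p (Y.gK n) c = sumK Y (fun _ => (1 : k)) n c := by
      intro c
      rw [sumK_apply]
      unfold H609.nm
      rw [LinearMap.sum_apply]
      exact Finset.sum_congr rfl fun i _ => (one_smul k _).symm
    change H609.nm p (Y.gK n) (pbK k f n c) x - pbK k f n (H609.nm p (Y.gK n) c) x = 0
    rw [h1, h1, sumK_pbK Y h.mg hr _ _ hx, sub_self]

theorem comm_A [CharP k p] (h2 : 2 < p) {H : ℝ → E → E} (hH : DV965.Arc Y.g H) (h : Y.Good X)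
    (hr : ∀ x ∈ X, f (Y.g x) = Y.g (f x)) {n : ℕ} (c : (ASK E k).K n) :
    (circSym Y h2 hH).A n (pbK k f n c) - pbK k f n ((circSym Y h2 hH).A n c) ∈
      (Zr Y.a Y.χ X X).S n :=
  mem_Zr_of_zero Y h fun x hx => by
    change sumK Y _ n (pbK k f n c) x - pbK k f n (sumK Y _ n c) x = 0
    rw [sumK_pbK Y h.mg hr _ _ hx, sub_self]

end

end Vale.Agent.P216.DV

namespace Vale.Agent.P216.RotS

open AS B633 DV Circ.PSt

variable {Λ : Type} [MetricSpace Λ] {S : GSys Λ} (R : RotS S)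
  (k : Type) [Field k] {p : ℕ} [CharP k p] (hp : p.Prime) (h2 : 2 < p)
  {s t : ℝ} {f : Λ → Λ} (hf : IsMap (fun _ : Unit => S.τ) (fun _ : Unit => S.τ) (S.X s) (S.X t) f)
  (hr : ∀ x ∈ S.X s, f (S.rot p x) = S.rot p (f x))

omit [CharP k p] R in
theorem isGMor (hf : IsMap (fun _ : Unit => S.τ) (fun _ : Unit => S.τ) (S.X s) (S.X t) f)
    (hr : ∀ x ∈ S.X s, f (S.rot p x) = S.rot p (f x)) :
    IsGMor (S.P k p hp.pos t) (S.P k p hp.pos s) (pbK k f) :=
  isGMor_pbK (S.sym k p hp.pos) (S.good k p hp.pos s) (S.good k p hp.pos t) hf hr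

/-- the map on `F` -/
noncomputable def pullF (n : ℕ) : R.F k hp h2 t n →ₗ[k] R.F k hp h2 s n :=
  mapF (R.pst k p hp.pos h2 t) (R.pst k p hp.pos h2 s) (isGMor k hp hf hr)
    (fun {_ c} _ => comm_A (S.sym k p hp.pos) h2 _ (S.good k p hp.pos s) hr c) n

/-- **The operator of an equivariant map.** -/
noncomputable def wop (hfin : FinAt S k) : (R.tsys k hp h2 hfin).WOp 1 1 t s where
  A n := R.pullF k hp h2 hf hr n
  B n := pull (fun _ : Unit => (-1 : k)) hf n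
  hπ n x := (πF_mapF (R.pst k p hp.pos h2 t) (R.pst k p hp.pos h2 s) (isGMor k hp hf hr)
    (fun {_ c} _ => comm_A (S.sym k p hp.pos) h2 _ (S.good k p hp.pos s) hr c) n x).symm
  hu n x := ((one_smul k _).trans (uF_mapF (R.pst k p hp.pos h2 t) (R.pst k p hp.pos h2 s)
    (isGMor k hp hf hr)
    (fun {_ c} _ => comm_A (S.sym k p hp.pos) h2 _ (S.good k p hp.pos s) hr c) n x)).symm
  hd n x := ((one_smul k _).trans (dF_mapH (R.pst k p hp.pos h2 t) (R.pst k p hp.pos h2 s)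
    (isGMor k hp hf hr)
    (fun {_ c} _ => comm_A (S.sym k p hp.pos) h2 _ (S.good k p hp.pos s) hr c) n x)).symm

theorem wop_B (hfin : FinAt S k) (n : ℕ) (x : S.V k t n) :
    (R.wop k hp h2 hf hr hfin).B n x = pull (fun _ : Unit => (-1 : k)) hf n x := rfl

end Vale.Agent.P216.RotS
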