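import Vale.Agent.P216.DV706.PInst
import Vale.Agent.P216.B633.AdaptC
import Vale.Agent.P216.B64.GoalsC

/-!
# The instance `PSysC` (P216-C, block C10)
-/

open Set Topology
open Module (finrank)
open Vale.Agent.P216.H288 Vale.Agent.P216.H494 Vale.Agent.P216.L250

namespace Vale.Agent.P216.DV706

open AS GM B64 B633 B609 Low

/-- The two languages for the cohomology without symmetries. -/
theorem hinc_bijective (k : Type) [Field k] {E : Type} [PseudoMetricSpace E] (X : Set E) (n : ℕ) :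
    ∃ e : HU k X n →ₗ[k] Hu k X n, Function.Bijective e := by
  have hS : Cc (a0 E) (c0 k) X ≤ Cc (fun _ : Unit => (id : E → E)) (fun _ : Unit => (1 : k)) X :=
    fun n f _ => eqv_id f
  have hT : Zr (a0 E) (c0 k) X X ≤
      Zr (fun _ : Unit => (id : E → E)) (fun _ : Unit => (1 : k)) X X :=
    fun n f hf => ⟨eqv_id f, hf.2⟩
  refine ⟨Hinc hS hT n, Hmap_bijective (IsMor.id_of_le hS hT) (fun {n x} _ hx => ?_)
    fun {n y} _ => ⟨y, fun e => e.elim, ?_⟩⟩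
  · exact ⟨fun e => e.elim, hx.2⟩
  · rw [LinearMap.id_apply, sub_self]
    exact Submodule.zero_mem _

section

variable {M : Type} [MetricSpace M] [CompactSpace M] (G : GeoList M)
  (hD : DescentStmt (Hol.triv : Hol M) G)

/-- **Finiteness at a low level** from the finiteness of the cohomology of `M`. -/
theorem baseFin_of_finM (hF : FinM M) : (S0 G hD).BaseFin := by
  obtain ⟨s₁, hr⟩ := exists_retr (Hol.triv : Hol M) G hD
  obtain ⟨s₀, h0, h1, h2⟩ := GSys.exists_lt_ℓ (S0 G hD) hr.pos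
  refine ⟨s₀, h0, h2, fun p hp hp2 => ?_⟩
  have h2p : (2 : ZMod p) ≠ 0 := by
    have := hp.out
    intro h
    have h' : ((2 : ℕ) : ZMod p) = 0 := by exact_mod_cast h
    rw [ZMod.natCast_eq_zero_iff] at h'
    have := Nat.le_of_dvd (by norm_num) h'
    omega
  have key : ∀ q, ∃ e : (S0 G hD).V (ZMod p) s₀ q →ₗ[ZMod p] Hu (ZMod p) (univ : Set M) q,
      Function.Bijective e := by
    intro q
    have hb := hr.res_bijective (k := ZMod p) h0 h1 h2 q
    have hs := sec_bijective (k := ZMod p) (Hol.triv : Hol M) q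
    have h3 : ∀ Y, (S0 G hD).X 0 = Y → ∃ e : (S0 G hD).V (ZMod p) s₀ q →ₗ[ZMod p]
        Ha (fun _ : Unit => deckC) (fun _ : Unit => (-1 : ZMod p)) Y q, Function.Bijective e := by
      rintro _ rfl
      exact ⟨_, hb⟩
    obtain ⟨e, he⟩ := h3 _ (XX_eq le_rfl)
    exact ⟨(AS.Hmap (isMor_sec (k := ZMod p) (Hol.triv : Hol M)) q) ∘ₗ e, by
      rw [LinearMap.coe_comp]
      exact hs.comp he⟩
  obtain ⟨h4, N, h5⟩ := hF (ZMod p) h2p
  refine ⟨fun q => ?_, N, fun q hq => ?_⟩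
  · obtain ⟨e, he⟩ := key q
    obtain ⟨e', he'⟩ := hinc_bijective (ZMod p) (univ : Set M) q
    have := h4 q
    have := Module.Finite.of_surjective e' he'.2
    exact Module.Finite.equiv (LinearEquiv.ofBijective e he).symm
  · obtain ⟨e, he⟩ := key q
    obtain ⟨e', he'⟩ := hinc_bijective (ZMod p) (univ : Set M) q
    have := h5 q hq
    have := he'.2.subsingleton
    exact he.1.subsingleton

theorem stableBarsC (hL : (S0 G hD).LevelBound) (h0 : (S0 G hD).BaseFin) {q : ℕ} {e : ℕ → ℕ}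
    {σ : ℤ} {B : ℝ} (hB : 0 < B)
    (hX : ∀ (k : Type) [Field k], (2 : k) ≠ 0 → Nonempty (XGenC M q e σ B k)) :
    (S0 G hD).StableBars B := by
  intro p hpp h2 s t hs h h' i
  obtain ⟨X⟩ := hX (ZMod p) (GSys.two_ne_zero' h2)
  exact (xiso G hD (ZMod p) hpp.out h2 (finAt G hD hL h0 p h2)).stableC X hB hs.le h
    (h.trans h') i

/-- **The instance.** `σ = 1`, or `σ = -1` and the cohomology of a low level is in even
degrees. -/
theorem psysC (hL : (S0 G hD).LevelBound) (h0 : (S0 G hD).BaseFin) {q : ℕ} {e : ℕ → ℕ} {σ : ℤ}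
    {B : ℝ} (hB : 0 < B) (hq : q < 2)
    (hσ : σ = 1 ∨ (σ * σ = 1 ∧ ∃ t₀ : ℝ, 0 ≤ t₀ ∧ (XL M t₀).Nonempty ∧ ∀ (k : Type) [Field k],
      ∀ i, i % 2 = 1 → Subsingleton ((S0 G hD).V k t₀ i)))
    (hX : ∀ (k : Type) [Field k], (2 : k) ≠ 0 → Nonempty (XGenC M q e σ B k)) :
    ∃ (K : ℕ) (B0 B1 : ℝ), ∀ p : ℕ, p.Prime → 2 < p → ∃ (k : Type) (_ : Field k),
      Nonempty (T695.PSysC k p (Crit G.ℓ) K B0 B1) := by
  obtain ⟨K, hK⟩ := (S0 G hD).bars_of_levelBound hL hB.le (stableBarsC G hD hL h0 hB hX) h0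
  obtain ⟨a, ha⟩ := exists_regCof (exists_reg G hD)
  refine ⟨K, B, B, fun p hp h2 => ⟨ZMod p, @ZMod.instField p ⟨hp⟩, ?_⟩⟩
  have hpp : Fact p.Prime := ⟨hp⟩
  obtain ⟨X⟩ := hX (ZMod p) (GSys.two_ne_zero' h2)
  have hf := finAt G hD hL h0 p h2
  have Φ := xiso G hD (ZMod p) hp h2 hf
  have hσ' : σ = 1 ∨ (σ * σ = 1 ∧ ∃ t₀ : ℝ, (∀ i, i % 2 = 1 →
      Subsingleton ((T0 G hD (ZMod p) hp h2 hf).H t₀ i)) ∧ X.g 0 t₀ ≠ 0) := by
    rcases hσ with h | ⟨h, t₀, ht₀, hne, h3⟩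
    · exact Or.inl h
    · exact Or.inr ⟨h, t₀, fun i hi => h3 (ZMod p) i hi, g0_neC X hB ht₀ hne⟩
  refine ⟨(T0 G hD (ZMod p) hp h2 hf).toPSysC hp.pos ha
    (Φ.restC X ha (GSys.two_ne_zero' h2) hq hB hσ' (K := K) ?_ ?_ ?_ ?_) (Φ.birthsC X hB)⟩
  · exact fun t ht htc => (hf t ht htc).2
  · exact fun t ht htc m T h hT => hK p hpp h2 t ht htc T h hT m
  · exact fun s t h hs hc i => (S0 G hD).res_bijective hs h hc ((S0 G hD).mono s t h) i
  · exact fun s t h hs hsc htc h1 => rel G hD p h2 hf s t h hs hsc htc h1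

end

/-- **C10** -/
theorem pcGoal : PCGoal := by
  intro M _ _ ρ hρ hs hLOC hF G e B hB hX
  have hD := descentStmt (Hol.triv : Hol M) G hρ hs
  exact psysC G hD (GM.levelBound (GM.f1 hρ hs) hLOC GM.tw Hol.triv G hD)
    (baseFin_of_finM G hD hF) hB (σ := 1) one_lt_two (Or.inl rfl) hX

end Vale.Agent.P216.DV706
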