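import Vale.Agent.P216.AS.TotMap

/-!
# `S¹`-equivariant cohomology inside `Z/p`-equivariant cohomology

`Circ G`: the data coming from a circle action on a complex with `Z/p`-action: an operator `A` with
`A (1 - g) = (1 - g) A = nm` (algebra, `p = 0` in `k`) and a homotopy `Q` with
`d Q + Q d = 1 - g` commuting with `g`.

On the total complex: `Vop` (product with the class `v` of degree one, `D V = V D`) and `Eop`
(degree `-1`, `D E = - E D`), with `E V - V E = ± 1`.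
-/

namespace Vale.Agent.P216.DV

open Vale.Agent.P216.AS

variable {k : Type} [Field k] {C : Amb k}

/-- The operators given by a circle action. -/
structure Circ (G : GCx C) where
  A : ∀ n, C.K n →ₗ[k] C.K n
  B : ∀ n, C.K n →ₗ[k] C.K n
  Q : ∀ n, C.K (n + 1) →ₗ[k] C.K n
  d_A : ∀ n x, C.d n (A n x) = A (n + 1) (C.d n x)
  d_B : ∀ n x, C.d n (B n x) = B (n + 1) (C.d n x)
  A_sub : ∀ n x, A n (x - G.g n x) = G.nm n x
  sub_A : ∀ n x, A n x - G.g n (A n x) = G.nm n x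
  A_eq : ∀ n x, A n x = B n (x - G.g n x)
  B_g : ∀ n x, B n (G.g n x) = G.g n (B n x)
  B_nm : ∀ n x, B n (G.nm n x) = G.nm n (B n x)
  Q_d0 : ∀ x, Q 0 (C.d 0 x) = x - G.g 0 x
  Q_d : ∀ n x, C.d n (Q n x) + Q (n + 1) (C.d (n + 1) x) = x - G.g (n + 1) x
  Q_g : ∀ n x, Q n (G.g (n + 1) x) = G.g n (Q n x)
  Q_nm : ∀ n x, Q n (G.nm (n + 1) x) = G.nm n (Q n x)
  Q_A : ∀ n x, Q n (A (n + 1) x) = A n (Q n x)

namespace Circ

variable {G : GCx C} (X : Circ G)

theorem Q_θ (i n : ℕ) (x : C.K (n + 1)) : X.Q n (G.θ i (n + 1) x) = G.θ i n (X.Q n x) := by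
  rcases Nat.mod_two_eq_zero_or_one i with h | h
  · rw [G.θ_even h, G.θ_even h, X.Q_nm]
  · rw [G.θ_odd h, G.θ_odd h, map_sub, X.Q_g]

theorem B_θ (i n : ℕ) (x : C.K n) : X.B n (G.θ i n x) = G.θ i n (X.B n x) := by
  rcases Nat.mod_two_eq_zero_or_one i with h | h
  · rw [G.θ_even h, G.θ_even h, X.B_nm]
  · rw [G.θ_odd h, G.θ_odd h, map_sub, X.B_g]

/-- product with the class `v` -/
def Vop (n : ℕ) : (∀ q, C.K q) →ₗ[k] (∀ q, C.K q) where
  toFun c q := if (n + q) % 2 = 0 then c q else X.A q (c q)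
  map_add' c c' := by
    funext q
    split_ifs with h <;> simp [h]
  map_smul' a c := by
    funext q
    split_ifs with h <;> simp [h]

theorem Vop_even {n q : ℕ} (h : (n + q) % 2 = 0) (c : ∀ q, C.K q) : X.Vop n c q = c q :=
  if_pos h

theorem Vop_odd {n q : ℕ} (h : (n + q) % 2 = 1) (c : ∀ q, C.K q) : X.Vop n c q = X.A q (c q) :=
  if_neg (by omega)

theorem Vop_add_two (n : ℕ) : X.Vop (n + 2) = X.Vop n := by
  ext c q
  rcases Nat.mod_two_eq_zero_or_one (n + q) with h | h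
  · rw [X.Vop_even h, X.Vop_even (by omega)]
  · rw [X.Vop_odd h, X.Vop_odd (by omega)]

/-- `d / dv`, a null homotopy of `1 - g` -/
def Sop (n : ℕ) : (∀ q, C.K q) →ₗ[k] (∀ q, C.K q) where
  toFun c q := if (n + q) % 2 = 0 then (-1 : k) ^ q • c q else 0
  map_add' c c' := by
    funext q
    split_ifs with h <;> simp [h]
  map_smul' a c := by
    funext q
    split_ifs with h
    · simp only [h, if_true, Pi.smul_apply, RingHom.id_apply]
      rw [smul_comm]
    · simp [h]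

theorem Sop_even {n q : ℕ} (h : (n + q) % 2 = 0) (c : ∀ q, C.K q) :
    Sop n c q = (-1 : k) ^ q • c q := if_pos h

theorem Sop_odd {n q : ℕ} (h : (n + q) % 2 = 1) (c : ∀ q, C.K q) : Sop n c q = 0 :=
  if_neg (by omega)

/-- `Q` on the components -/
def Qsh : (∀ q, C.K q) →ₗ[k] (∀ q, C.K q) where
  toFun c q := X.Q q (c (q + 1))
  map_add' c c' := by funext q; simp
  map_smul' a c := by funext q; simp

@[simp] theorem Qsh_apply (c : ∀ q, C.K q) (q : ℕ) : X.Qsh c q = X.Q q (c (q + 1)) := rfl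

/-- The operator of degree `-1`. -/
def Eop (n : ℕ) : (∀ q, C.K q) →ₗ[k] (∀ q, C.K q) := X.Qsh - Sop n

theorem Eop_even {n q : ℕ} (h : (n + q) % 2 = 0) (c : ∀ q, C.K q) :
    X.Eop n c q = X.Q q (c (q + 1)) - (-1 : k) ^ q • c q := by
  rw [Eop, LinearMap.sub_apply, Pi.sub_apply, Qsh_apply, Sop_even h]

theorem Eop_odd {n q : ℕ} (h : (n + q) % 2 = 1) (c : ∀ q, C.K q) :
    X.Eop n c q = X.Q q (c (q + 1)) := by
  rw [Eop, LinearMap.sub_apply, Pi.sub_apply, Qsh_apply, Sop_odd h, sub_zero]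

theorem Eop_add_two (n : ℕ) : X.Eop (n + 2) = X.Eop n := by
  ext c q
  rcases Nat.mod_two_eq_zero_or_one (n + q) with h | h
  · rw [X.Eop_even h, X.Eop_even (by omega)]
  · rw [X.Eop_odd h, X.Eop_odd (by omega)]

/-! ### Relations on the total complex -/

theorem A_θ_odd {i : ℕ} (h : i % 2 = 1) (n : ℕ) (x : C.K n) :
    X.A n (G.θ i n x) = G.nm n x := by
  rw [G.θ_odd h, X.A_sub]

theorem θ_A_odd {i : ℕ} (h : i % 2 = 1) (n : ℕ) (x : C.K n) :
    G.θ i n (X.A n x) = G.nm n x := by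
  rw [G.θ_odd h, X.sub_A]

theorem D_Vop (n : ℕ) (c : ∀ q, C.K q) : G.D (n + 1) (X.Vop n c) = X.Vop (n + 1) (G.D n c) := by
  have key : ∀ q, G.θ (n + 1 + 1 + q) q (X.Vop n c q) =
      (if (n + 1 + q) % 2 = 0 then G.θ (n + 1 + q) q (c q)
        else X.A q (G.θ (n + 1 + q) q (c q))) := by
    intro q
    rcases Nat.mod_two_eq_zero_or_one (n + q) with h | h
    · rw [X.Vop_even h, if_neg (by omega), X.A_θ_odd (by omega), G.θ_even (by omega)]
    · rw [X.Vop_odd h, if_pos (by omega), X.θ_A_odd (by omega), G.θ_even (by omega)]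
  funext q
  cases q with
  | zero =>
    rw [GCx.D_zero]
    have := key 0
    rw [Nat.add_zero] at this
    rw [this]
    rcases Nat.mod_two_eq_zero_or_one (n + 1 + 0) with h | h
    · rw [if_pos h, X.Vop_even h, GCx.D_zero]
    · rw [if_neg (by omega), X.Vop_odd h, GCx.D_zero]
  | succ q =>
    rw [GCx.D_succ, key (q + 1)]
    rcases Nat.mod_two_eq_zero_or_one (n + 1 + (q + 1)) with h | h
    · rw [if_pos h, X.Vop_even h, GCx.D_succ, X.Vop_even (n := n) (by omega)]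
    · rw [if_neg (by omega), X.Vop_odd h, GCx.D_succ, X.Vop_odd (n := n) (by omega), X.d_A,
        map_add, map_smul]

/-- `Sop` is a null homotopy of `1 - g`. -/
theorem D_Sop (n : ℕ) (c : ∀ q, C.K q) (q : ℕ) :
    G.D n (Sop n c) q + Sop (n + 1) (G.D (n + 1) c) q = c q - G.g q (c q) := by
  cases q with
  | zero =>
    rw [GCx.D_zero]
    rcases Nat.mod_two_eq_zero_or_one (n + 0) with h | h
    · rw [Sop_even h, Sop_odd (by omega), G.θ_odd (by omega)]
      simp
    · rw [Sop_odd h, Sop_even (by omega), map_zero, zero_add, GCx.D_zero, G.θ_odd (by omega)]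
      simp
  | succ q =>
    rw [GCx.D_succ]
    rcases Nat.mod_two_eq_zero_or_one (n + (q + 1)) with h | h
    · rw [Sop_even h, Sop_odd (n := n) (q := q) (by omega), Sop_odd (by omega), map_zero,
        map_smul, smul_smul, ← pow_add, Even.neg_one_pow ⟨q + 1, rfl⟩, one_smul,
        G.θ_odd (by omega), zero_add, add_zero]
    · rw [Sop_odd h, Sop_even (n := n) (q := q) (by omega), Sop_even (n := n + 1) (by omega),
        map_zero, smul_zero, add_zero, GCx.D_succ, map_smul, smul_add, smul_smul, ← pow_add,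
        Even.neg_one_pow ⟨q + 1, rfl⟩, one_smul, G.θ_odd (by omega), pow_succ]
      simp

theorem D_Qsh (n : ℕ) (c : ∀ q, C.K q) (q : ℕ) :
    G.D n (X.Qsh c) q + X.Qsh (G.D (n + 1) c) q = c q - G.g q (c q) := by
  cases q with
  | zero =>
    rw [GCx.D_zero, Qsh_apply, Qsh_apply, GCx.D_succ, map_add, map_smul, X.Q_d0, X.Q_θ,
      G.θ_congr (i := n + 1 + 1 + (0 + 1)) (j := n + 1) (by omega)]
    simp
  | succ q =>
    rw [GCx.D_succ, Qsh_apply, Qsh_apply, Qsh_apply, GCx.D_succ, map_add, map_smul, X.Q_θ,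
      G.θ_congr (i := n + 1 + 1 + (q + 1 + 1)) (j := n + 1 + (q + 1)) (by omega),
      pow_succ (-1 : k) (q + 1)]
    have h := X.Q_d q (c (q + 1))
    rw [← h]
    simp only [mul_neg, mul_one, neg_smul]
    abel

theorem D_Eop (n : ℕ) (c : ∀ q, C.K q) :
    G.D n (X.Eop n c) = - X.Eop (n + 1) (G.D (n + 1) c) := by
  funext q
  have h1 := X.D_Qsh n c q
  have h2 := D_Sop (G := G) n c q
  rw [← h2] at h1
  simp only [Eop, LinearMap.sub_apply, map_sub, Pi.neg_apply, Pi.sub_apply]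
  rw [neg_sub, sub_eq_sub_iff_add_eq_add, h1, add_comm]

/-- `E V - V E = ± 1`. -/
theorem Eop_Vop (n : ℕ) (c : ∀ q, C.K q) :
    X.Eop (n + 1) (X.Vop (n + 1) c) - X.Vop n (X.Eop n c) = (-1 : k) ^ n • c := by
  funext q
  change X.Eop (n + 1) (X.Vop (n + 1) c) q - X.Vop n (X.Eop n c) q = (-1 : k) ^ n • c q
  rcases Nat.mod_two_eq_zero_or_one (n + q) with h | h
  · rw [X.Eop_odd (by omega), X.Vop_even h, X.Eop_even h, X.Vop_even (by omega), sub_sub_cancel]
    congr 1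
    exact neg_one_pow_congr (by rw [Nat.even_iff, Nat.even_iff]; omega)
  · rw [X.Eop_even (by omega), X.Vop_odd (n := n) h, X.Eop_odd h, X.Vop_odd (by omega),
      X.Vop_even (by omega), X.Q_A]
    have e : (-1 : k) ^ n = (-1 : k) ^ (q + 1) :=
      neg_one_pow_congr (by rw [Nat.even_iff, Nat.even_iff]; omega)
    rw [e, pow_succ, mul_neg_one, neg_smul]
    generalize X.A q (X.Q q (c (q + 1))) = a
    abel

/-- `V V = A`. -/
theorem Vop_Vop (n : ℕ) (c : ∀ q, C.K q) (q : ℕ) :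
    X.Vop (n + 1) (X.Vop n c) q = X.A q (c q) := by
  rcases Nat.mod_two_eq_zero_or_one (n + q) with h | h
  · rw [X.Vop_odd (by omega), X.Vop_even h]
  · rw [X.Vop_even (by omega), X.Vop_odd h]

/-- `B` on the components -/
def Bsh (X : Circ G) : (∀ q, C.K q) →ₗ[k] (∀ q, C.K q) where
  toFun c q := X.B q (c q)
  map_add' c c' := by funext q; simp
  map_smul' a c := by funext q; simp

@[simp] theorem Bsh_apply (c : ∀ q, C.K q) (q : ℕ) : X.Bsh c q = X.B q (c q) := rfl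

theorem D_Bsh (n : ℕ) (c : ∀ q, C.K q) : G.D n (X.Bsh c) = X.Bsh (G.D n c) := by
  funext q
  cases q with
  | zero => rw [GCx.D_zero, Bsh_apply, Bsh_apply, GCx.D_zero, X.B_θ]
  | succ q =>
    rw [GCx.D_succ, Bsh_apply, Bsh_apply, Bsh_apply, GCx.D_succ, map_add, map_smul, X.B_θ, X.d_B]

/-- `V V` is null homotopic. -/
theorem Vop_Vop_eq (n : ℕ) (c : ∀ q, C.K q) :
    X.Vop (n + 1) (X.Vop n c) =
      G.D (n + 1) (X.Bsh (Sop (n + 1) c)) + X.Bsh (Sop n (G.D n c)) := by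
  rw [X.D_Bsh, ← map_add]
  funext q
  rw [X.Vop_Vop, X.A_eq, Bsh_apply, Pi.add_apply]
  congr 1
  have h := D_Sop (G := G) (n + 1) c q
  rw [← h, GCx.D_add_two]
  congr 1
  rcases Nat.mod_two_eq_zero_or_one (n + q) with h' | h'
  · rw [Sop_even (by omega), Sop_even h']
  · rw [Sop_odd (by omega), Sop_odd h']

/-- invariance of a subcomplex under the circle data -/
structure St (S : Sub C) : Prop extends G.Stable S where
  A_mem : ∀ n x, x ∈ S.S n → X.A n x ∈ S.S n
  B_mem : ∀ n x, x ∈ S.S n → X.B n x ∈ S.S n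
  Q_mem : ∀ n x, x ∈ S.S (n + 1) → X.Q n x ∈ S.S n

end Circ

end Vale.Agent.P216.DV
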