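import Vale.Agent.P216.DV706.Defs

/-!
# The operators `V` and `E` on cohomology, the summand `ker V`

`TP X`: subcomplexes `T' ≤ S'` of the total complex stable under `Vop`, `Eop`, `Bc`, `Sop`,
with `S' n` supported in degrees `≤ n`.  `V : H n → H (n + 1)`, `E : H (n + 1) → H n`,
`V V = 0`, `E V - V E = ± 1`, `ker V = im V`.
-/

namespace Vale.Agent.P216.DV

open Vale.Agent.P216.AS

variable {k : Type} [Field k] {C C' : Amb k} {G : GCx C} {G' : GCx C'}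

/-- A subcomplex of the total complex stable under all operators. -/
structure Circ.TSt (X : Circ G) (S : Sub G.Tot) : Prop where
  V_mem : ∀ n (c : ∀ q, C.K q), c ∈ S.S n → X.Vop n c ∈ S.S (n + 1)
  E_mem : ∀ n (c : ∀ q, C.K q), c ∈ S.S (n + 1) → X.Eop n c ∈ S.S n
  BS_mem : ∀ n (c : ∀ q, C.K q), c ∈ S.S n → X.Bsh (Circ.Sop (n + 1) c) ∈ S.S (n + 1)
  BS'_mem : ∀ n (c : ∀ q, C.K q), c ∈ S.S (n + 1) → X.Bsh (Circ.Sop n c) ∈ S.S (n + 2)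
  E0 : ∀ (c : ∀ q, C.K q), c ∈ S.S 0 → X.Eop 1 c = 0

namespace Circ

variable (X : Circ G) {S T S' T' R : Sub G.Tot}

theorem Vop_isZ (hS : X.TSt S) (hT : X.TSt T) (n : ℕ) (c : ∀ q, C.K q)
    (hc : c ∈ Zc S T n) : X.Vop n c ∈ Zc S T (n + 1) := by
  refine mem_Zc.mpr ⟨hS.V_mem n c hc.1, ?_⟩
  change G.D (n + 1) (X.Vop n c) ∈ T.S (n + 1 + 1)
  rw [X.D_Vop]
  exact hT.V_mem _ _ hc.2

theorem Vop_isB (hS : X.TSt S) (hT : X.TSt T) (n : ℕ) (c : ∀ q, C.K q)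
    (hc : c ∈ Bc S T n) : X.Vop n c ∈ Bc S T (n + 1) := by
  cases n with
  | zero =>
    refine mem_Bc_succ.mpr ⟨0, Submodule.zero_mem _, ?_⟩
    rw [map_zero, sub_zero]
    exact hT.V_mem 0 c (mem_Bc_zero.mp hc)
  | succ n =>
    obtain ⟨y, hy, h⟩ := mem_Bc_succ.mp hc
    refine mem_Bc_succ.mpr ⟨X.Vop n y, hS.V_mem n y hy, ?_⟩
    change X.Vop (n + 1) c - G.D (n + 1) (X.Vop n y) ∈ _
    rw [X.D_Vop, ← map_sub]
    exact hT.V_mem _ _ h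

/-- product with `v` -/
def V (hS : X.TSt S) (hT : X.TSt T) (n : ℕ) : H S T n →ₗ[k] H S T (n + 1) :=
  H.gmap (C := G.Tot) (C' := G.Tot) (X.Vop n) (X.Vop_isZ hS hT n)
    (fun c _ hc => X.Vop_isB hS hT n c hc)

theorem V_mk (hS : X.TSt S) (hT : X.TSt T) {n : ℕ} {c : ∀ q, C.K q} (hc : c ∈ Zc S T n) :
    X.V hS hT n (H.mk c hc) = H.mk (C := G.Tot) (X.Vop n c) (X.Vop_isZ hS hT n c hc) :=
  H.gmap_mk _ _ _ hc

theorem Eop_isZ (hS : X.TSt S) (hT : X.TSt T) (n : ℕ) (c : ∀ q, C.K q)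
    (hc : c ∈ Zc S T (n + 1)) : X.Eop n c ∈ Zc S T n := by
  refine mem_Zc.mpr ⟨hS.E_mem n c hc.1, ?_⟩
  change G.D n (X.Eop n c) ∈ T.S (n + 1)
  rw [X.D_Eop]
  exact Submodule.neg_mem _ (hT.E_mem _ _ hc.2)

theorem Eop_isB (hS : X.TSt S) (hT : X.TSt T) (n : ℕ) (c : ∀ q, C.K q)
    (hc : c ∈ Bc S T (n + 1)) : X.Eop n c ∈ Bc S T n := by
  obtain ⟨y, hy, h⟩ := mem_Bc_succ.mp hc
  have h' : c - G.D n y ∈ T.S (n + 1) := h
  cases n with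
  | zero =>
    refine mem_Bc_zero.mpr ?_
    have e1 : X.Eop 0 c = X.Eop 0 (c - G.D 0 y) + X.Eop 0 (G.D 0 y) := by rw [map_sub]; abel
    have e2 : X.Eop 0 (G.D 0 y) = 0 := by
      have := X.D_Eop 1 y
      rw [hS.E0 y hy, map_zero, GCx.D_add_two, X.Eop_add_two] at this
      exact neg_eq_zero.mp this.symm
    rw [e1, e2, add_zero]
    exact hT.E_mem 0 _ h'
  | succ n =>
    refine mem_Bc_succ.mpr ⟨- X.Eop n y, Submodule.neg_mem _ (hS.E_mem n y hy), ?_⟩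
    change X.Eop (n + 1) c - G.D n (- X.Eop n y) ∈ _
    rw [map_neg, X.D_Eop, neg_neg, ← map_sub]
    exact hT.E_mem _ _ h'

/-- the operator of degree `-1` -/
def E (hS : X.TSt S) (hT : X.TSt T) (n : ℕ) : H S T (n + 1) →ₗ[k] H S T n :=
  H.gmap (C := G.Tot) (C' := G.Tot) (X.Eop n) (X.Eop_isZ hS hT n)
    (fun c _ hc => X.Eop_isB hS hT n c hc)

theorem E_mk (hS : X.TSt S) (hT : X.TSt T) {n : ℕ} {c : ∀ q, C.K q} (hc : c ∈ Zc S T (n + 1)) :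
    X.E hS hT n (H.mk c hc) = H.mk (C := G.Tot) (X.Eop n c) (X.Eop_isZ hS hT n c hc) :=
  H.gmap_mk _ _ _ hc

/-- `E V - V E = ± 1`. -/
theorem E_V (hS : X.TSt S) (hT : X.TSt T) (n : ℕ) (x : H S T (n + 1)) :
    X.E hS hT (n + 1) (X.V hS hT (n + 1) x) - X.V hS hT n (X.E hS hT n x) =
      (-1 : k) ^ n • x := by
  obtain ⟨c, hc, rfl⟩ := H.exists_mk x
  rw [X.V_mk, X.E_mk, X.E_mk, X.V_mk, ← H.mk_sub, ← H.mk_smul]
  congr 1
  exact X.Eop_Vop n c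

theorem E_V_zero (hS : X.TSt S) (hT : X.TSt T) (x : H S T 0) :
    X.E hS hT 0 (X.V hS hT 0 x) = - x := by
  obtain ⟨c, hc, rfl⟩ := H.exists_mk x
  rw [X.V_mk, X.E_mk, ← H.mk_neg]
  congr 1
  have h := X.Eop_Vop 1 c
  rw [hS.E0 c hc.1, map_zero, sub_zero, X.Eop_add_two, X.Vop_add_two] at h
  rw [h]
  simp

/-- `V V = 0` on cohomology. -/
theorem V_V (hS : X.TSt S) (hT : X.TSt T) (n : ℕ) (x : H S T n) :
    X.V hS hT (n + 1) (X.V hS hT n x) = 0 := by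
  obtain ⟨c, hc, rfl⟩ := H.exists_mk x
  rw [X.V_mk, X.V_mk, H.mk_eq_zero]
  refine mem_Bc_succ.mpr ⟨X.Bsh (Sop (n + 1) c), hS.BS_mem n c hc.1, ?_⟩
  change X.Vop (n + 1) (X.Vop n c) - G.D (n + 1) (X.Bsh (Sop (n + 1) c)) ∈ T.S (n + 1 + 1)
  rw [X.Vop_Vop_eq, add_sub_cancel_left]
  exact hT.BS'_mem n _ hc.2

/-- `ker V = im V` in positive degrees. -/
theorem exists_V_of (hS : X.TSt S) (hT : X.TSt T) (n : ℕ) (x : H S T (n + 1))
    (h : X.V hS hT (n + 1) x = 0) :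
    X.V hS hT n ((-1 : k) ^ (n + 1) • X.E hS hT n x) = x := by
  have h1 := X.E_V hS hT n x
  rw [h, map_zero, zero_sub] at h1
  rw [map_smul, pow_succ, mul_neg_one, neg_smul, ← smul_neg, h1, smul_smul, ← pow_add,
    Even.neg_one_pow ⟨n, rfl⟩, one_smul]

/-- `V` is injective in degree zero. -/
theorem V_zero_eq (hS : X.TSt S) (hT : X.TSt T) (x : H S T 0) (h : X.V hS hT 0 x = 0) :
    x = 0 := by
  have h1 := X.E_V_zero hS hT x
  rw [h, map_zero] at h1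
  exact neg_eq_zero.mp h1.symm

/-- the summand `F n = ker V` in degree `n + 1` -/
def kV (hS : X.TSt S) (hT : X.TSt T) (n : ℕ) : Submodule k (H S T (n + 1)) :=
  LinearMap.ker (X.V hS hT (n + 1))

theorem mem_kV (hS : X.TSt S) (hT : X.TSt T) {n : ℕ} {x : H S T (n + 1)} :
    x ∈ X.kV hS hT n ↔ X.V hS hT (n + 1) x = 0 := LinearMap.mem_ker

theorem V_mem_kV (hS : X.TSt S) (hT : X.TSt T) {n : ℕ} (x : H S T n) :
    X.V hS hT n x ∈ X.kV hS hT n := (X.mem_kV hS hT).mpr (X.V_V hS hT n x)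

end Circ

/-- Exactness of the functor `ker V`: `x = s • V (E x)` and `x` comes from `A1`, then it comes
from `V A0`. -/
theorem exists_of_exact {A0 A1 B0 B1 : Type} [AddCommGroup A0] [Module k A0]
    [AddCommGroup A1] [Module k A1] [AddCommGroup B0] [Module k B0] [AddCommGroup B1] [Module k B1]
    {VA : A0 →ₗ[k] A1} {EA : A1 →ₗ[k] A0} {VB : B0 →ₗ[k] B1} {EB : B1 →ₗ[k] B0}
    {f₀ : A0 →ₗ[k] B0} {f₁ : A1 →ₗ[k] B1} {a b : k} (hV : ∀ y, VB (f₀ y) = a • f₁ (VA y))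
    (hE : ∀ y, EB (f₁ y) = b • f₀ (EA y)) {s : k} {x : B1} (hx : VB (s • EB x) = x) {z : A1}
    (hz : f₁ z = x) : ∃ y, f₁ (VA y) = x := by
  refine ⟨(s * b * a) • EA z, ?_⟩
  rw [map_smul, map_smul]
  conv_rhs => rw [← hx, ← hz, hE, smul_smul, map_smul, hV, smul_smul]

end Vale.Agent.P216.DV
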