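import Vale.Agent.P216.DV706.Fun

/-!
# The Gysin sequence of `F = ker V`

`X.F h n = ker (V : FF (n + 1) → FF (n + 2))` is the `S¹`-equivariant cohomology in degree `n`.
`X.gys h : USeq k (F) P.HH` is the Gysin sequence.
-/

namespace Vale.Agent.P216.DV

open Vale.Agent.P216.AS

variable {k : Type} [Field k] {C C' : Amb k} {G : GCx C} {G' : GCx C'}

namespace Circ

variable (X : Circ G)

theorem bot_of_support {c : ∀ q, C.K q} (hc : ∀ q, 0 < q → c q = 0) : X.Eop 1 c = 0 := by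
  funext q
  rcases Nat.mod_two_eq_zero_or_one (1 + q) with h | h
  · rw [X.Eop_even h, hc (q + 1) (by omega), hc q (by omega)]
    simp
  · rw [X.Eop_odd h, hc (q + 1) (by omega)]
    simp

variable {X}

theorem St.Bsh_mem {S : Sub C} (h : X.St S) {c : ∀ q, C.K q} {n q : ℕ} (hq : c q ∈ S.S q) :
    X.Bsh (Sop n c) q ∈ S.S q := by
  rw [Bsh_apply]
  refine h.B_mem _ _ ?_
  rcases Nat.mod_two_eq_zero_or_one (n + q) with h' | h'
  · rw [Sop_even h']; exact Submodule.smul_mem _ _ hq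
  · rw [Sop_odd h']; exact Submodule.zero_mem _

theorem Bsh_zero {c : ∀ q, C.K q} {n q : ℕ} (hq : c q = 0) : X.Bsh (Sop n c) q = 0 := by
  rw [Bsh_apply]
  rcases Nat.mod_two_eq_zero_or_one (n + q) with h' | h'
  · rw [Sop_even h', hq, smul_zero, map_zero]
  · rw [Sop_odd h', map_zero]

theorem St.Vop_mem {S : Sub C} (h : X.St S) {c : ∀ q, C.K q} {n q : ℕ} (hq : c q ∈ S.S q) :
    X.Vop n c q ∈ S.S q := by
  rcases Nat.mod_two_eq_zero_or_one (n + q) with h' | h'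
  · rw [X.Vop_even h']; exact hq
  · rw [X.Vop_odd h']; exact h.A_mem _ _ hq

theorem Vop_zero {c : ∀ q, C.K q} {n q : ℕ} (hq : c q = 0) : X.Vop n c q = 0 := by
  rcases Nat.mod_two_eq_zero_or_one (n + q) with h' | h'
  · rw [X.Vop_even h']; exact hq
  · rw [X.Vop_odd h', hq, map_zero]

theorem St.tstS {S : Sub C} (h : X.St S) (hS : G.Stable S) : X.TSt (G.TotS S hS) where
  V_mem n c hc := by
    refine ⟨fun q hq => h.Vop_mem ?_, fun q hq => Vop_zero (hc.2 q (by omega))⟩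
    rcases Nat.lt_or_ge n q with h' | h'
    · rw [hc.2 q h']; exact Submodule.zero_mem _
    · exact hc.1 q h'
  E_mem n c hc := by
    refine ⟨fun q hq => ?_, fun q hq => ?_⟩
    · rcases Nat.mod_two_eq_zero_or_one (n + q) with h' | h'
      · rw [X.Eop_even h']
        exact Submodule.sub_mem _ (h.Q_mem _ _ (hc.1 _ (by omega)))
          (Submodule.smul_mem _ _ (hc.1 _ (by omega)))
      · rw [X.Eop_odd h']
        exact h.Q_mem _ _ (hc.1 _ (by omega))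
    · rcases Nat.mod_two_eq_zero_or_one (n + q) with h' | h'
      · rw [X.Eop_even h', hc.2 (q + 1) (by omega), hc.2 q (by omega)]
        simp
      · rw [X.Eop_odd h', hc.2 (q + 1) (by omega), map_zero]
  BS_mem n c hc := by
    refine ⟨fun q hq => h.Bsh_mem ?_, fun q hq => Bsh_zero (hc.2 q (by omega))⟩
    rcases Nat.lt_or_ge n q with h' | h'
    · rw [hc.2 q h']; exact Submodule.zero_mem _
    · exact hc.1 q h'
  BS'_mem n c hc := by
    refine ⟨fun q hq => h.Bsh_mem ?_, fun q hq => Bsh_zero (hc.2 q (by omega))⟩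
    rcases Nat.lt_or_ge (n + 1) q with h' | h'
    · rw [hc.2 q h']; exact Submodule.zero_mem _
    · exact hc.1 q h'
  E0 c hc := X.bot_of_support fun q hq => hc.2 q hq

/-- The pair `P` is stable under the circle data. -/
structure PSt (X : Circ G) (P : G.Pair) : Prop where
  S : X.St P.S
  T : X.St P.T

theorem PSt.tstU {P : G.Pair} (h : X.PSt P) : X.TSt (G.TotU P.S P.T P.hS P.hT P.le) where
  V_mem n c hc := by
    have hcS := P.TU_le_TS hc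
    refine ⟨fun q hq => h.S.Vop_mem (hcS.1 q (by omega)), fun q hq hq' => ?_,
      fun q hq => Vop_zero (hc.2.2 q (by omega))⟩
    rcases Nat.lt_or_ge n q with h' | h'
    · rw [Vop_zero (hc.2.2 q h')]; exact Submodule.zero_mem _
    · exact h.T.Vop_mem (hc.2.1 q h' (by omega))
  E_mem n c hc := by
    have hcS := P.TU_le_TS hc
    have hE := (h.S.tstS P.hS).E_mem n c hcS
    refine ⟨fun q hq => hE.1 q (by omega), fun q hq hq' => ?_, hE.2⟩
    rcases Nat.mod_two_eq_zero_or_one (n + q) with h' | h'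
    · obtain rfl : q = n := by omega
      rw [X.Eop_even h']
      exact Submodule.sub_mem _ (h.T.Q_mem _ _ (hc.2.1 _ (by omega) (by omega)))
        (Submodule.smul_mem _ _ (hc.2.1 _ (by omega) (by omega)))
    · rw [X.Eop_odd h']
      exact h.T.Q_mem _ _ (hc.2.1 _ (by omega) (by omega))
  BS_mem n c hc := by
    have hcS := P.TU_le_TS hc
    have hB := (h.S.tstS P.hS).BS_mem n c hcS
    refine ⟨fun q hq => hB.1 q (by omega), fun q hq hq' => ?_, hB.2⟩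
    rcases Nat.lt_or_ge n q with h' | h'
    · rw [Bsh_zero (hc.2.2 q h')]; exact Submodule.zero_mem _
    · exact h.T.Bsh_mem (hc.2.1 q h' (by omega))
  BS'_mem n c hc := by
    have hcS := P.TU_le_TS hc
    have hB := (h.S.tstS P.hS).BS'_mem n c hcS
    refine ⟨fun q hq => hB.1 q (by omega), fun q hq hq' => ?_, hB.2⟩
    rcases Nat.lt_or_ge (n + 1) q with h' | h'
    · rw [Bsh_zero (hc.2.2 q h')]; exact Submodule.zero_mem _
    · exact h.T.Bsh_mem (hc.2.1 q h' (by omega))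
  E0 c hc := X.bot_of_support fun q hq => hc.2.2 q hq

end Circ

/-- equality of classes from equality of cochains -/
theorem mk_congr {D : Amb k} {S T : Sub D} {n : ℕ} {x y : D.K n} (e : x = y) (hx : x ∈ Zc S T n)
    (hy : y ∈ Zc S T n) : H.mk x hx = H.mk y hy := by
  subst e
  rfl

namespace Circ.PSt

variable {X : Circ G} {P : G.Pair}

theorem tS (h : X.PSt P) : X.TSt (G.TotS P.S P.hS) := h.S.tstS P.hS
theorem tT (h : X.PSt P) : X.TSt (G.TotS P.T P.hT) := h.T.tstS P.hT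

/-- `V` on `FF` -/
def VF (h : X.PSt P) (n : ℕ) : P.FF n →ₗ[k] P.FF (n + 1) := X.V h.tS h.tT n
/-- `E` on `FF` -/
def EF (h : X.PSt P) (n : ℕ) : P.FF (n + 1) →ₗ[k] P.FF n := X.E h.tS h.tT n
/-- `V` on `EE` -/
def VE (h : X.PSt P) (n : ℕ) : P.EE n →ₗ[k] P.EE (n + 1) := X.V h.tS h.tstU n
/-- `E` on `EE` -/
def EE (h : X.PSt P) (n : ℕ) : P.EE (n + 1) →ₗ[k] P.EE n := X.E h.tS h.tstU n

variable (h : X.PSt P)

theorem VF_mk {n : ℕ} {c : ∀ q, C.K q} (hc : c ∈ Zc (G.TotS P.S P.hS) (G.TotS P.T P.hT) n) :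
    h.VF n (H.mk c hc) = H.mk (C := G.Tot) (X.Vop n c) (X.Vop_isZ h.tS h.tT n c hc) :=
  X.V_mk _ _ hc

theorem EF_mk {n : ℕ} {c : ∀ q, C.K q}
    (hc : c ∈ Zc (G.TotS P.S P.hS) (G.TotS P.T P.hT) (n + 1)) :
    h.EF n (H.mk c hc) = H.mk (C := G.Tot) (X.Eop n c) (X.Eop_isZ h.tS h.tT n c hc) :=
  X.E_mk _ _ hc

theorem VE_mk {n : ℕ} {c : ∀ q, C.K q}
    (hc : c ∈ Zc (G.TotS P.S P.hS) (G.TotU P.S P.T P.hS P.hT P.le) n) :
    h.VE n (H.mk c hc) =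
      H.mk (C := G.Tot) (X.Vop n c) (X.Vop_isZ h.tS h.tstU n c hc) :=
  X.V_mk _ _ hc

theorem EE_mk {n : ℕ} {c : ∀ q, C.K q}
    (hc : c ∈ Zc (G.TotS P.S P.hS) (G.TotU P.S P.T P.hS P.hT P.le) (n + 1)) :
    h.EE n (H.mk c hc) =
      H.mk (C := G.Tot) (X.Eop n c) (X.Eop_isZ h.tS h.tstU n c hc) :=
  X.E_mk _ _ hc

omit h in
theorem u_mk {n : ℕ} {c : ∀ q, C.K q} (hc : c ∈ Zc (G.TotS P.S P.hS) (G.TotS P.T P.hT) n) :
    ∃ hc', P.u n (H.mk c hc) = H.mk c hc' := ⟨_, rfl⟩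

omit h in
theorem π_mk {n : ℕ} {c : ∀ q, C.K q} (hc : c ∈ Zc (G.TotS P.S P.hS) (G.TotS P.T P.hT) n) :
    ∃ hc', P.π n (H.mk c hc) = H.mk c hc' := ⟨_, rfl⟩

theorem VF_u (n : ℕ) (x : P.FF n) : h.VF (n + 2) (P.u n x) = P.u (n + 1) (h.VF n x) := by
  obtain ⟨c, hc, rfl⟩ := H.exists_mk x
  obtain ⟨h1, e1⟩ := u_mk hc
  obtain ⟨h2, e2⟩ := u_mk (X.Vop_isZ h.tS h.tT n c hc)
  rw [e1, VF_mk, VF_mk, e2]
  exact mk_congr (D := G.Tot) (by rw [X.Vop_add_two]) _ _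

theorem EF_u (n : ℕ) (x : P.FF (n + 1)) : h.EF (n + 2) (P.u (n + 1) x) = P.u n (h.EF n x) := by
  obtain ⟨c, hc, rfl⟩ := H.exists_mk x
  obtain ⟨h1, e1⟩ := u_mk hc
  obtain ⟨h2, e2⟩ := u_mk (X.Eop_isZ h.tS h.tT n c hc)
  rw [e1, EF_mk, EF_mk, e2]
  exact mk_congr (D := G.Tot) (by rw [X.Eop_add_two]) _ _

theorem EF_u_zero (x : P.FF 0) : h.EF 1 (P.u 0 x) = 0 := by
  obtain ⟨c, hc, rfl⟩ := H.exists_mk x
  obtain ⟨h1, e1⟩ := u_mk hc
  rw [e1, EF_mk, H.mk_eq_zero]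
  rw [X.bot_of_support fun q hq => (mem_Zc.mp hc).1.2 q hq]
  exact Submodule.zero_mem _

theorem VE_π (n : ℕ) (x : P.FF n) : h.VE n (P.π n x) = P.π (n + 1) (h.VF n x) := by
  obtain ⟨c, hc, rfl⟩ := H.exists_mk x
  obtain ⟨h1, e1⟩ := π_mk hc
  obtain ⟨h2, e2⟩ := π_mk (X.Vop_isZ h.tS h.tT n c hc)
  rw [e1, VF_mk, VE_mk, e2]

theorem EE_π (n : ℕ) (x : P.FF (n + 1)) : h.EE n (P.π (n + 1) x) = P.π n (h.EF n x) := by
  obtain ⟨c, hc, rfl⟩ := H.exists_mk x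
  obtain ⟨h1, e1⟩ := π_mk hc
  obtain ⟨h2, e2⟩ := π_mk (X.Eop_isZ h.tS h.tT n c hc)
  rw [e1, EF_mk, EE_mk, e2]

theorem VF_δ (n : ℕ) (x : P.EE (n + 1)) : h.VF n (P.δ n x) = P.δ (n + 1) (h.VE (n + 1) x) := by
  obtain ⟨c, hc, rfl⟩ := H.exists_mk x
  obtain ⟨y, hy, hcy⟩ := P.exists_δ hc
  rw [P.δ_mk hc hy hcy, VF_mk, VE_mk]
  refine (P.δ_mk _ _ ?_).symm
  rw [X.D_Vop, show X.Vop n y = X.Vop (n + 1 + 1) y from by rw [← X.Vop_add_two], ← map_sub]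
  exact h.tT.V_mem _ _ hcy

theorem EF_δ (n : ℕ) (x : P.EE (n + 2)) :
    h.EF n (P.δ (n + 1) x) = - P.δ n (h.EE (n + 1) x) := by
  obtain ⟨c, hc, rfl⟩ := H.exists_mk x
  obtain ⟨y, hy, hcy⟩ := P.exists_δ hc
  rw [P.δ_mk hc hy hcy, EF_mk, EE_mk]
  have hy' : - X.Eop n y ∈ Zc (G.TotS P.S P.hS) (G.TotS P.T P.hT) n :=
    Submodule.neg_mem _ (X.Eop_isZ h.tS h.tT n y hy)
  rw [P.δ_mk _ hy' (by
    rw [X.D_Eop, show X.Eop n y = X.Eop (n + 1 + 1) y from by rw [← X.Eop_add_two], sub_neg_eq_add,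
      neg_add_eq_sub, ← neg_sub, ← map_sub]
    exact Submodule.neg_mem _ (h.tT.E_mem _ _ hcy))]
  rw [← H.mk_neg]
  exact mk_congr (D := G.Tot) (neg_neg _).symm _ _

/-! ### The cone -/

omit h in
theorem b_mk {n : ℕ} {c : ∀ q, C.K q}
    (hc : c ∈ Zc (G.TotS P.S P.hS) (G.TotU P.S P.T P.hS P.hT P.le) n) :
    ∃ hc', P.b n (H.mk c hc) = H.mk (c n) hc' := ⟨_, rfl⟩

omit h in
theorem a_mk' {n : ℕ} {x : C.K n} (hx : x ∈ Zc P.S P.T n) :
    ∃ hx', P.a n (H.mk x hx) = H.mk (C := G.Tot) (GCx.Pair.sg n x) hx' := ⟨_, rfl⟩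

/-- `V = a b` on `EE`. -/
theorem VE_eq (n : ℕ) (x : P.EE n) : h.VE n x = P.a n (P.b n x) := by
  obtain ⟨c, hc, rfl⟩ := H.exists_mk x
  obtain ⟨h1, e1⟩ := b_mk hc
  obtain ⟨h2, e2⟩ := a_mk' h1
  rw [e1, e2, VE_mk, H.mk_eq_mk]
  refine mem_Bc_succ.mpr ⟨0, Submodule.zero_mem _, ?_⟩
  rw [map_zero, sub_zero]
  have h3 := (h.tS.V_mem n c (mem_Zc.mp hc).1)
  have h4 : GCx.Pair.sg n (c n) ∈ (G.TotS P.S P.hS).S (n + 1) :=
    GCx.Pair.sg_mem_TS (by omega) ((mem_Zc.mp hc).1.1 n le_rfl)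
  have h5 := Submodule.sub_mem _ h3 h4
  refine ⟨fun q hq => h5.1 q (by omega), fun q hq hq' => ?_, h5.2⟩
  change X.Vop n c q - GCx.Pair.sg n (c n) q ∈ P.T.S q
  rcases eq_or_ne q n with rfl | hne
  · rw [GCx.Pair.sg_same, X.Vop_even (by omega), sub_self]
    exact Submodule.zero_mem _
  · rw [GCx.Pair.sg_ne hne, sub_zero, Circ.Vop_zero ((mem_Zc.mp hc).1.2 q (by omega))]
    exact Submodule.zero_mem _

include h in
theorem oneSub_eq_zero (n : ℕ) (x : P.HH n) : P.oneSub n x = 0 := by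
  obtain ⟨c, hc, rfl⟩ := H.exists_mk x
  rw [P.oneSub_mk, H.mk_eq_zero]
  obtain ⟨h1, h2⟩ := mem_Zc.mp hc
  cases n with
  | zero =>
    refine mem_Bc_zero.mpr ?_
    rw [← X.Q_d0]
    exact h.T.Q_mem _ _ h2
  | succ n =>
    refine mem_Bc_succ.mpr ⟨X.Q n c, h.S.Q_mem _ _ h1, ?_⟩
    rw [← X.Q_d, add_sub_cancel_left]
    exact h.T.Q_mem _ _ h2

include h in
theorem a_inj (n : ℕ) : Function.Injective (P.a n) := by
  rw [injective_iff_map_eq_zero]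
  intro x hx
  obtain ⟨y, rfl⟩ := P.exists_of_a_eq_zero x hx
  exact h.oneSub_eq_zero n y

include h in
theorem b_surj (n : ℕ) : Function.Surjective (P.b n) := fun x =>
  P.exists_of_oneSub_eq_zero x (h.oneSub_eq_zero n x)

/-- `ker V = im a` on `EE`. -/
theorem ker_VE (n : ℕ) (x : P.EE (n + 1)) (hx : h.VE (n + 1) x = 0) : ∃ y, P.a n y = x := by
  rw [h.VE_eq] at hx
  have h1 : P.b (n + 1) x = 0 := h.a_inj (n + 1) (by rw [hx, map_zero])
  exact (P.exab n x).mp h1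

theorem VE_a (n : ℕ) (y : P.HH n) : h.VE (n + 1) (P.a n y) = 0 := by
  rw [h.VE_eq, (P.exab n (P.a n y)).mpr ⟨y, rfl⟩, map_zero]

/-! ### `F` -/

/-- the `S¹`-equivariant cohomology in degree `n` -/
abbrev F (h : X.PSt P) (n : ℕ) : Submodule k (P.FF (n + 1)) := LinearMap.ker (h.VF (n + 1))

theorem mem_F {n : ℕ} {x : P.FF (n + 1)} : x ∈ h.F n ↔ h.VF (n + 1) x = 0 := LinearMap.mem_ker

theorem VF_VF (n : ℕ) (x : P.FF n) : h.VF (n + 1) (h.VF n x) = 0 := X.V_V _ _ n x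

theorem VF_mem (n : ℕ) (x : P.FF n) : h.VF n x ∈ h.F n := h.mem_F.mpr (h.VF_VF n x)

/-- `x = V (± E x)` on `F` -/
theorem VF_EF {n : ℕ} {x : P.FF (n + 1)} (hx : x ∈ h.F n) :
    h.VF n ((-1 : k) ^ (n + 1) • h.EF n x) = x :=
  X.exists_V_of _ _ n x (h.mem_F.mp hx)

theorem exists_VF {n : ℕ} {x : P.FF (n + 1)} (hx : x ∈ h.F n) : ∃ y, h.VF n y = x :=
  ⟨_, h.VF_EF hx⟩

theorem VF_zero_inj {x : P.FF 0} (hx : h.VF 0 x = 0) : x = 0 := X.V_zero_eq _ _ x hx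

theorem VE_VE (n : ℕ) (x : P.EE n) : h.VE (n + 1) (h.VE n x) = 0 := X.V_V _ _ n x

theorem VE_EE {n : ℕ} {x : P.EE (n + 1)} (hx : h.VE (n + 1) x = 0) :
    h.VE n ((-1 : k) ^ (n + 1) • h.EE n x) = x :=
  X.exists_V_of _ _ n x hx

/-- `u` on `F` -/
def uF (n : ℕ) : h.F n →ₗ[k] h.F (n + 2) :=
  (P.u (n + 1)).restrict fun x hx => by
    rw [mem_F] at hx ⊢
    have := h.VF_u (n + 1) x
    rw [hx, map_zero] at this
    exact this

@[simp] theorem uF_coe (n : ℕ) (x : h.F n) : (h.uF n x : P.FF (n + 2 + 1)) = P.u (n + 1) x.1 := rfl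

theorem π_mem (n : ℕ) (x : h.F n) : P.π (n + 1) x.1 ∈ LinearMap.range (P.a n) := by
  refine h.ker_VE n _ ?_
  rw [h.VE_π, h.mem_F.mp x.2, map_zero]

/-- restriction to non equivariant cohomology -/
noncomputable def πF (n : ℕ) : h.F n →ₗ[k] P.HH n :=
  (LinearEquiv.ofInjective (P.a n) (h.a_inj n)).symm.toLinearMap ∘ₗ
    ((P.π (n + 1)) ∘ₗ (h.F n).subtype).codRestrict (LinearMap.range (P.a n)) (h.π_mem n)

theorem a_πF (n : ℕ) (x : h.F n) : P.a n (h.πF n x) = P.π (n + 1) x.1 := by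
  have := LinearEquiv.apply_symm_apply (LinearEquiv.ofInjective (P.a n) (h.a_inj n))
    ⟨P.π (n + 1) x.1, h.π_mem n x⟩
  exact congrArg Subtype.val this

/-- `π (V y) = b (π y)` -/
theorem πF_VF (n : ℕ) (y : P.FF n) : h.πF n ⟨h.VF n y, h.VF_mem n y⟩ = P.b n (P.π n y) := by
  apply h.a_inj n
  rw [h.a_πF, ← h.VE_eq, h.VE_π]

/-- the transfer -/
noncomputable def dF (n : ℕ) : P.HH (n + 1) →ₗ[k] h.F n :=
  ((P.δ (n + 1)) ∘ₗ (P.a (n + 1))).codRestrict (h.F n) fun y => by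
    rw [mem_F, LinearMap.comp_apply, h.VF_δ, h.VE_a, map_zero]

@[simp] theorem dF_coe (n : ℕ) (y : P.HH (n + 1)) :
    (h.dF n y : P.FF (n + 1)) = P.δ (n + 1) (P.a (n + 1) y) := rfl

/-- **The Gysin sequence.** -/
noncomputable def gys : USeq k (fun n => h.F n) P.HH where
  u := h.uF
  π := h.πF
  d := h.dF
  inj0 := by
    rw [injective_iff_map_eq_zero]
    intro x hx
    have h1 := h.a_πF 0 x
    rw [hx, map_zero] at h1
    exact Subtype.ext (P.π_one_inj (by rw [← h1]; exact (map_zero _).symm))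
  surj0 := by
    intro y
    have h1 : P.δ 0 (P.a 0 y) = 0 := by
      refine h.VF_zero_inj ?_
      rw [h.VF_δ, h.VE_a, map_zero]
    obtain ⟨z, hz⟩ := (P.ex1 0 _).mp h1
    obtain ⟨w, hw⟩ := exists_of_exact (VA := h.VF 0) (EA := h.EF 0) (VB := h.VE 0) (EB := h.EE 0)
      (f₀ := P.π 0) (f₁ := P.π 1) (a := 1) (b := 1) (fun y => by rw [one_smul, h.VE_π])
      (fun y => by rw [one_smul, h.EE_π]) (h.VE_EE (h.VE_a 0 y)) hz
    refine ⟨⟨h.VF 0 w, h.VF_mem 0 w⟩, h.a_inj 0 ?_⟩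
    rw [h.a_πF]
    exact hw
  inj1 := by
    rw [injective_iff_map_eq_zero]
    intro x hx
    have h1 := h.a_πF 1 x
    rw [hx, map_zero] at h1
    obtain ⟨w, hw⟩ := (P.ex3 0 x.1).mp h1.symm
    have h2 := h.VF_EF x.2
    rw [← hw, h.EF_u_zero, smul_zero, map_zero] at h2
    exact Subtype.ext (by rw [← hw, ← h2]; rfl)
  ex1 := by
    intro n y
    constructor
    · intro hy
      have h1 : P.δ (n + 1) (P.a (n + 1) y) = 0 := congrArg Subtype.val hy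
      obtain ⟨z, hz⟩ := (P.ex1 (n + 1) _).mp h1
      obtain ⟨w, hw⟩ := exists_of_exact (VA := h.VF (n + 1)) (EA := h.EF (n + 1))
        (VB := h.VE (n + 1)) (EB := h.EE (n + 1))
        (f₀ := P.π (n + 1)) (f₁ := P.π (n + 2)) (a := 1) (b := 1)
        (fun y => by rw [one_smul, h.VE_π])
        (fun y => by rw [one_smul, h.EE_π]) (h.VE_EE (h.VE_a (n + 1) y)) hz
      refine ⟨⟨h.VF (n + 1) w, h.VF_mem (n + 1) w⟩, h.a_inj (n + 1) ?_⟩
      rw [h.a_πF]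
      exact hw
    · rintro ⟨x, rfl⟩
      refine Subtype.ext ?_
      rw [dF_coe, h.a_πF]
      exact (P.ex1 (n + 1) _).mpr ⟨_, rfl⟩
  ex2 := by
    intro n x
    constructor
    · intro hx
      have h1 : P.u (n + 1) x.1 = 0 := congrArg Subtype.val hx
      obtain ⟨z, hz⟩ := (P.ex2 (n + 1) _).mp h1
      obtain ⟨w, hw⟩ := exists_of_exact (VA := h.VE (n + 1)) (EA := h.EE (n + 1))
        (VB := h.VF n) (EB := h.EF n)
        (f₀ := P.δ n) (f₁ := P.δ (n + 1)) (a := 1) (b := -1)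
        (fun y => by rw [one_smul, h.VF_δ])
        (fun y => by rw [neg_one_smul, h.EF_δ]) (h.VF_EF x.2) hz
      refine ⟨P.b (n + 1) w, Subtype.ext ?_⟩
      rw [dF_coe, ← h.VE_eq]
      exact hw
    · rintro ⟨y, rfl⟩
      refine Subtype.ext ?_
      rw [uF_coe, dF_coe]
      exact (P.ex2 (n + 1) _).mpr ⟨_, rfl⟩
  ex3 := by
    intro n x
    constructor
    · intro hx
      have h1 := h.a_πF (n + 2) x
      rw [hx, map_zero] at h1
      obtain ⟨z, hz⟩ := (P.ex3 (n + 1) _).mp h1.symm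
      obtain ⟨w, hw⟩ := exists_of_exact (VA := h.VF n) (EA := h.EF n)
        (VB := h.VF (n + 2)) (EB := h.EF (n + 2))
        (f₀ := P.u n) (f₁ := P.u (n + 1)) (a := 1) (b := 1)
        (fun y => by rw [one_smul, h.VF_u])
        (fun y => by rw [one_smul, h.EF_u]) (h.VF_EF x.2) hz
      exact ⟨⟨h.VF n w, h.VF_mem n w⟩, Subtype.ext hw⟩
    · rintro ⟨y, rfl⟩
      refine h.a_inj (n + 2) ?_
      rw [h.a_πF, map_zero, uF_coe]
      exact (P.ex3 (n + 1) _).mpr ⟨_, rfl⟩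

end Circ.PSt

end Vale.Agent.P216.DV
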