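import Vale.Agent.P216.DV706.Gys
import Vale.Agent.P216.DV965.QG
import Vale.Agent.P216.AS.Setup707
import Vale.Agent.P216.H941.LocKer

/-!
# The circle data of a `Sym` with an arc from the identity to `g`, in characteristic `p`

`A = ∑ i g ^ i`, `B = ∑ (0 + 1 + ... + i) g ^ i`, `Q` = the operator of `DV965`.
-/

open Set

namespace Vale.Agent.P216.DV

open Vale.Agent.P216.AS Vale.Agent.P216.DV965

section Ring

variable {k : Type} [Field k] {R : Type} [Ring R] [Algebra k R] {p : ℕ}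

theorem sum_shift {g : R} (hg : g ^ p = 1) (a : ℕ → k) (ha : a p = a 0) :
    ∑ i ∈ Finset.range p, a (i + 1) • g ^ (i + 1) = ∑ i ∈ Finset.range p, a i • g ^ i := by
  have h1 := Finset.sum_range_succ' (fun i => a i • g ^ i) p
  have h2 := Finset.sum_range_succ (fun i => a i • g ^ i) p
  rw [h2] at h1
  simp only [hg, ha, pow_zero] at h1
  exact (add_right_cancel h1).symm

/-- `(∑ b i gⁱ) (1 - g) = ∑ (b (i + 1) - b i) gⁱ⁺¹` -/
theorem sum_mul_sub {g : R} (hg : g ^ p = 1) (b : ℕ → k) (hb : b p = b 0) :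
    (∑ i ∈ Finset.range p, b i • g ^ i) * (1 - g) =
      ∑ i ∈ Finset.range p, (b (i + 1) - b i) • g ^ (i + 1) := by
  rw [mul_sub, mul_one, Finset.sum_mul]
  conv_lhs => rw [← sum_shift hg b hb]
  rw [← Finset.sum_sub_distrib]
  refine Finset.sum_congr rfl fun i _ => ?_
  rw [sub_smul, smul_mul_assoc, ← pow_succ]

/-- the coefficients `0 + 1 + ... + i` -/
def tri (k : Type) [Field k] (i : ℕ) : k := ∑ j ∈ Finset.range (i + 1), (j : k)

theorem tri_succ (i : ℕ) : tri k (i + 1) - tri k i = ((i + 1 : ℕ) : k) := by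
  rw [tri, Finset.sum_range_succ, tri, add_sub_cancel_left]

theorem tri_p [CharP k p] (h2 : 2 < p) : tri k p = tri k 0 := by
  rw [tri, Finset.sum_range_succ, H941.sum_range_cast_eq_zero k h2, CharP.cast_eq_zero, tri]
  simp

theorem cast_p [CharP k p] : ((p : ℕ) : k) = ((0 : ℕ) : k) := by
  rw [CharP.cast_eq_zero, Nat.cast_zero]

/-- `A (1 - g) = nm` -/
theorem sumA_mul [CharP k p] {g : R} (hg : g ^ p = 1) :
    (∑ i ∈ Finset.range p, (i : k) • g ^ i) * (1 - g) = H609.nm p g := by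
  rw [sum_mul_sub hg (fun i => (i : k)) cast_p, H609.nm]
  have h1 : ∀ i ∈ Finset.range p, (((i + 1 : ℕ) : k) - (i : k)) • g ^ (i + 1) =
      (1 : k) • g ^ (i + 1) := by
    intro i _
    congr 1
    push_cast
    ring
  rw [Finset.sum_congr rfl h1, sum_shift hg (fun _ => (1 : k)) rfl]
  simp

/-- `B (1 - g) = A` -/
theorem sumB_mul [CharP k p] (h2 : 2 < p) {g : R} (hg : g ^ p = 1) :
    (∑ i ∈ Finset.range p, tri k i • g ^ i) * (1 - g) =
      ∑ i ∈ Finset.range p, (i : k) • g ^ i := by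
  rw [sum_mul_sub hg (tri k) (tri_p h2)]
  simp only [tri_succ]
  exact sum_shift hg (fun i => (i : k)) cast_p

theorem comm_sum (a : ℕ → k) (g : R) :
    Commute (∑ i ∈ Finset.range p, a i • g ^ i) g :=
  Commute.sum_left _ _ _ fun i _ => ((Commute.refl g).pow_left i).smul_left _

end Ring

variable {E : Type} [PseudoMetricSpace E] {k : Type} [Field k] {I : Type} {p : ℕ}

/-- the operator `∑ b i gⁱ` on cochains -/
def sumK (Y : Sym E k I p) (b : ℕ → k) (n : ℕ) : Module.End k ((ASK E k).K n) :=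
  ∑ i ∈ Finset.range p, b i • Y.gK n ^ i

theorem sumK_apply (Y : Sym E k I p) (b : ℕ → k) (n : ℕ) (x : (ASK E k).K n) :
    sumK Y b n x = ∑ i ∈ Finset.range p, b i • (Y.gK n ^ i) x := by
  rw [sumK, LinearMap.sum_apply]
  rfl

theorem d_sumK (Y : Sym E k I p) (b : ℕ → k) (n : ℕ) (x : (ASK E k).K n) :
    (ASK E k).d n (sumK Y b n x) = sumK Y b (n + 1) ((ASK E k).d n x) := by
  rw [sumK_apply, sumK_apply, map_sum]
  refine Finset.sum_congr rfl fun i _ => ?_
  rw [map_smul, Y.d_gK_pow]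

theorem sumK_mem (Y : Sym E k I p) (b : ℕ → k) {n : ℕ} {W : Submodule k ((ASK E k).K n)}
    (h : ∀ x ∈ W, Y.gK n x ∈ W) {x : (ASK E k).K n} (hx : x ∈ W) : sumK Y b n x ∈ W := by
  rw [sumK_apply]
  have hp : ∀ i, (Y.gK n ^ i) x ∈ W := by
    intro i
    induction i with
    | zero => exact hx
    | succ i ih => rw [pow_succ']; exact h _ ih
  exact Submodule.sum_mem _ fun i _ => Submodule.smul_mem _ _ (hp i)

theorem Q_pow (Y : Sym E k I p) {H : ℝ → E → E} (h : Arc Y.g H) {n : ℕ} (j : ℕ)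
    (c : (ASK E k).K (n + 1)) :
    Qop k H n ((Y.gK (n + 1) ^ j) c) = (Y.gK n ^ j) (Qop k H n c) := h.Q_g_pow j c

theorem Q_sumK (Y : Sym E k I p) (b : ℕ → k) {H : ℝ → E → E} (h : Arc Y.g H) {n : ℕ}
    (c : (ASK E k).K (n + 1)) :
    Qop k H n (sumK Y b (n + 1) c) = sumK Y b n (Qop k H n c) := by
  rw [sumK_apply, sumK_apply, map_sum]
  refine Finset.sum_congr rfl fun i _ => ?_
  rw [map_smul, Q_pow Y h]

/-- **The circle data.** -/
noncomputable def circSym (Y : Sym E k I p) [CharP k p] (h2 : 2 < p) {H : ℝ → E → E}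
    (hH : Arc Y.g H) : Circ Y.gcx where
  A := sumK Y fun i => (i : k)
  B := sumK Y (tri k)
  Q := Qop k H
  d_A := d_sumK Y _
  d_B := d_sumK Y _
  A_sub n x := by
    have h := congrArg (fun T : Module.End k ((ASK E k).K n) => T x)
      (sumA_mul (k := k) (Y.gK_pow n))
    exact h
  sub_A n x := by
    have h := congrArg (fun T : Module.End k ((ASK E k).K n) => T x)
      (sumA_mul (k := k) (Y.gK_pow n))
    have h' : (sumK Y (fun i => (i : k)) n) * (1 - Y.gK n) =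
      (1 - Y.gK n) * (sumK Y (fun i => (i : k)) n) :=
      ((Commute.one_right _).sub_right (comm_sum (fun i => (i : k)) (Y.gK n))).eq
    change ((sumK Y (fun i => (i : k)) n) * (1 - Y.gK n)) x = _ at h
    rw [h'] at h
    exact h
  A_eq n x := by
    have h := congrArg (fun T : Module.End k ((ASK E k).K n) => T x)
      (sumB_mul (k := k) h2 (Y.gK_pow n))
    exact h.symm
  B_g n x := by
    have h := congrArg (fun T : Module.End k ((ASK E k).K n) => T x)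
      (comm_sum (p := p) (tri k) (Y.gK n)).eq
    exact h
  B_nm n x := by
    have h0 : Commute (sumK Y (tri k) n) (H609.nm p (Y.gK n)) :=
      Commute.sum_right _ _ _ fun i _ => (comm_sum (p := p) (tri k) (Y.gK n)).pow_right i
    have h := congrArg (fun T : Module.End k ((ASK E k).K n) => T x) h0.eq
    exact h
  Q_d0 x := hH.Q_d_zero x
  Q_d n x := hH.d_Q x
  Q_g n x := hH.Q_g x
  Q_nm n x := hH.Q_nm x
  Q_A n x := Q_sumK Y _ hH x

section

variable (Y : Sym E k I p) [CharP k p] (h2 : 2 < p) {H : ℝ → E → E} (hH : Arc Y.g H)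

theorem circSym_A (n : ℕ) (x : (ASK E k).K n) : (circSym Y h2 hH).A n x =
    ∑ i ∈ Finset.range p, (i : k) • (Y.gK n ^ i) x := sumK_apply Y _ n x

theorem circSym_Q (n : ℕ) : (circSym Y h2 hH).Q n = Qop k H n := rfl

/-- The arc preserves `X`, with uniform continuity, and commutes with the symmetries. -/
structure ArcGood (Y : Sym E k I p) (H : ℝ → E → E) (X : Set E) : Prop where
  maps : ∀ r ∈ Icc (0 : ℝ) 1, ∀ x ∈ X, H r x ∈ X
  uc : UC X H
  comm : ∀ r ∈ Icc (0 : ℝ) 1, ∀ i, ∀ x ∈ X, H r (Y.a i x) = Y.a i (H r x)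

theorem st_Cc {X : Set E} (h : Y.Good X) (hX : ArcGood Y H X) :
    (circSym Y h2 hH).St (Cc Y.a Y.χ X) where
  toStable := Sym.stable_Cc h
  A_mem _ _ hx := sumK_mem Y _ (fun y hy => (Sym.stable_Cc h).g_mem _ y hy) hx
  B_mem _ _ hx := sumK_mem Y _ (fun y hy => (Sym.stable_Cc h).g_mem _ y hy) hx
  Q_mem _ _ hx := hq_mem_Cc hX.maps hX.comm hx

theorem st_Zr {X A : Set E} (h : Y.Good X) (hX : ArcGood Y H X) (hA : A ⊆ X)
    (hm : MapsTo Y.g A A) (hHA : ∀ r ∈ Icc (0 : ℝ) 1, ∀ x ∈ A, H r x ∈ A) :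
    (circSym Y h2 hH).St (Zr Y.a Y.χ X A) where
  toStable := Sym.stable_Zr h hA hm
  A_mem _ _ hx := sumK_mem Y _ (fun y hy => (Sym.stable_Zr h hA hm).g_mem _ y hy) hx
  B_mem _ _ hx := sumK_mem Y _ (fun y hy => (Sym.stable_Zr h hA hm).g_mem _ y hy) hx
  Q_mem _ _ hx := hq_mem_Zr hX.maps hHA (hX.uc.mono hA) hX.comm hx

/-- the absolute pair -/
theorem pst_PA {X : Set E} (h : Y.Good X) (hX : ArcGood Y H X) :
    (circSym Y h2 hH).PSt (Sym.PA h) :=
  ⟨st_Cc Y h2 hH h hX, st_Zr Y h2 hH h hX Subset.rfl h.mg hX.maps⟩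

/-- the relative pair -/
theorem pst_PR {X A B : Set E} (h : Y.Good X) (hX : ArcGood Y H X) (hA : Y.GoodSub X A)
    (hB : Y.GoodSub X B) (hBA : B ⊆ A) (hHA : ∀ r ∈ Icc (0 : ℝ) 1, ∀ x ∈ A, H r x ∈ A)
    (hHB : ∀ r ∈ Icc (0 : ℝ) 1, ∀ x ∈ B, H r x ∈ B) :
    (circSym Y h2 hH).PSt (Sym.PR h hA hB hBA) :=
  ⟨st_Zr Y h2 hH h hX hB.sub hB.mg hHB, st_Zr Y h2 hH h hX hA.sub hA.mg hHA⟩

/-- the pair of a subset -/
theorem pst_PM {X A : Set E} (h : Y.Good X) (hX : ArcGood Y H X) (hA : Y.GoodSub X A)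
    (hHA : ∀ r ∈ Icc (0 : ℝ) 1, ∀ x ∈ A, H r x ∈ A) :
    (circSym Y h2 hH).PSt (Sym.PM h hA) :=
  ⟨st_Cc Y h2 hH h hX, st_Zr Y h2 hH h hX hA.sub hA.mg hHA⟩

end

end Vale.Agent.P216.DV
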