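import Vale.Agent.P216.DV706.Gys

/-!
# Naturality of `F = ker V` and the long exact sequence
-/

namespace Vale.Agent.P216.DV

open Vale.Agent.P216.AS

variable {k : Type} [Field k] {C C' : Amb k} {G : GCx C} {G' : GCx C'}

namespace Circ.PSt

variable {X : Circ G} {X' : Circ G'} {P : G.Pair} {P' : G'.Pair}
  {φ : ∀ n, C.K n →ₗ[k] C'.K n}

/-- `V` commutes with the maps which commute with `A` (modulo the small complex). -/
theorem VF_mapF (h : X.PSt P) (h' : X'.PSt P') (hφ : IsGMor P P' φ)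
    (hA : ∀ {n x}, x ∈ P.S.S n → X'.A n (φ n x) - φ n (X.A n x) ∈ P'.T.S n) (n : ℕ)
    (x : P.FF n) : h'.VF n (hφ.mapF n x) = hφ.mapF (n + 1) (h.VF n x) := by
  obtain ⟨c, hc, rfl⟩ := H.exists_mk x
  rw [hφ.mapF_mk, h.VF_mk, h'.VF_mk, hφ.mapF_mk, H.mk_eq_mk]
  refine mem_Bc_succ.mpr ⟨0, Submodule.zero_mem _, ?_⟩
  rw [map_zero, sub_zero]
  have hcS := (mem_Zc.mp hc).1
  refine ⟨fun q hq => ?_, fun q hq => ?_⟩
  · change X'.Vop n (IsGMor.seq φ c) q - φ q (X.Vop n c q) ∈ P'.T.S q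
    rcases Nat.mod_two_eq_zero_or_one (n + q) with h1 | h1
    · rw [X'.Vop_even h1, X.Vop_even h1, IsGMor.seq_apply, sub_self]
      exact Submodule.zero_mem _
    · rw [X'.Vop_odd h1, X.Vop_odd h1, IsGMor.seq_apply]
      refine hA ?_
      rcases Nat.lt_or_ge n q with h2 | h2
      · rw [hcS.2 q h2]; exact Submodule.zero_mem _
      · exact hcS.1 q h2
  · change X'.Vop n (IsGMor.seq φ c) q - φ q (X.Vop n c q) = 0
    rw [Circ.Vop_zero (hcS.2 q (by omega)),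
      Circ.Vop_zero (by rw [IsGMor.seq_apply, hcS.2 q (by omega), map_zero]), map_zero, sub_zero]

/-- `V` on `EE` commutes with the maps. -/
theorem VE_mapE (h : X.PSt P) (h' : X'.PSt P') (hφ : IsGMor P P' φ) (n : ℕ)
    (x : P.EE n) : h'.VE n (hφ.mapE n x) = hφ.mapE (n + 1) (h.VE n x) := by
  rw [h.VE_eq, h'.VE_eq, hφ.b_mapE, hφ.a_mapH]

/-- the map induced on `F` -/
def mapF (h : X.PSt P) (h' : X'.PSt P') (hφ : IsGMor P P' φ)
    (hA : ∀ {n x}, x ∈ P.S.S n → X'.A n (φ n x) - φ n (X.A n x) ∈ P'.T.S n) (n : ℕ) :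
    h.F n →ₗ[k] h'.F n :=
  (hφ.mapF (n + 1)).restrict fun x hx => by
    rw [mem_F, VF_mapF h h' hφ hA, h.mem_F.mp hx, map_zero]

section

variable (h : X.PSt P) (h' : X'.PSt P') (hφ : IsGMor P P' φ)
    (hA : ∀ {n x}, x ∈ P.S.S n → X'.A n (φ n x) - φ n (X.A n x) ∈ P'.T.S n)

@[simp] theorem mapF_coe (n : ℕ) (x : h.F n) :
    (mapF h h' hφ hA n x : P'.FF (n + 1)) = hφ.mapF (n + 1) x.1 := rfl

theorem uF_mapF (n : ℕ) (x : h.F n) :
    h'.uF n (mapF h h' hφ hA n x) = mapF h h' hφ hA (n + 2) (h.uF n x) :=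
  Subtype.ext (hφ.u_mapF (n + 1) x.1)

theorem πF_mapF (n : ℕ) (x : h.F n) :
    h'.πF n (mapF h h' hφ hA n x) = hφ.mapH n (h.πF n x) := by
  refine h'.a_inj n ?_
  rw [h'.a_πF, mapF_coe, hφ.π_mapF, ← h.a_πF, hφ.a_mapH]

theorem dF_mapH (n : ℕ) (y : P.HH (n + 1)) :
    h'.dF n (hφ.mapH (n + 1) y) = mapF h h' hφ hA n (h.dF n y) := by
  refine Subtype.ext ?_
  rw [dF_coe, mapF_coe, dF_coe, hφ.a_mapH, hφ.δ_mapE]

end

/-! ### Restriction -/

section Res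

variable {P Q : G.Pair} (h : X.PSt P) (h' : X.PSt Q) (hS : P.S ≤ Q.S) (hT : P.T ≤ Q.T)

omit h h' hS hT in
theorem comm_id (n : ℕ) (x : C.K n) :
    X.A n ((LinearMap.id : C.K n →ₗ[k] C.K n) x) - (LinearMap.id : C.K n →ₗ[k] C.K n) (X.A n x) ∈
      Q.T.S n := by
  rw [LinearMap.id_apply, LinearMap.id_apply, sub_self]
  exact Submodule.zero_mem _

/-- restriction on `F` -/
def resF (n : ℕ) : h.F n →ₗ[k] h'.F n :=
  mapF h h' (IsGMor.id_of_le hS hT) (fun {n x} _ => comm_id n x) n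

theorem resF_coe (n : ℕ) (x : h.F n) :
    (resF h h' hS hT n x : Q.FF (n + 1)) = GCx.Pair.resF hS hT (n + 1) x.1 := by
  change (IsGMor.id_of_le hS hT).mapF (n + 1) x.1 = _
  rw [IsGMor.mapF_incl]

theorem VF_resF (n : ℕ) (x : P.FF n) :
    h'.VF n (GCx.Pair.resF hS hT n x) = GCx.Pair.resF hS hT (n + 1) (h.VF n x) := by
  have := VF_mapF h h' (IsGMor.id_of_le hS hT) (fun {n x} _ => comm_id n x) n x
  rwa [IsGMor.mapF_incl, IsGMor.mapF_incl] at this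

theorem uF_resF (n : ℕ) (x : h.F n) :
    h'.uF n (resF h h' hS hT n x) = resF h h' hS hT (n + 2) (h.uF n x) :=
  uF_mapF h h' _ (fun {n x} _ => comm_id n x) n x

theorem πF_resF (n : ℕ) (x : h.F n) :
    h'.πF n (resF h h' hS hT n x) = GCx.Pair.resH hS hT n (h.πF n x) :=
  πF_mapF h h' (IsGMor.id_of_le hS hT) (fun {n x} _ => comm_id n x) n x

theorem dF_resH (n : ℕ) (y : P.HH (n + 1)) :
    h'.dF n (GCx.Pair.resH hS hT (n + 1) y) = resF h h' hS hT n (h.dF n y) :=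
  dF_mapH h h' (IsGMor.id_of_le hS hT) (fun {n x} _ => comm_id n x) n y

end Res

end Circ.PSt

/-! ### The long exact sequence of a triple, for subcomplexes of the total complex -/

namespace Circ

variable (X : Circ G) {R S T R' S' T' : Sub G.Tot}

theorem V_Hinc (hS : X.TSt S) (hT : X.TSt T) (hS' : X.TSt S') (hT' : X.TSt T') (i : S ≤ S')
    (j : T ≤ T') (n : ℕ) (x : H S T n) :
    X.V hS' hT' n (Hinc i j n x) = Hinc i j (n + 1) (X.V hS hT n x) := by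
  obtain ⟨c, hc, rfl⟩ := H.exists_mk x
  rfl

theorem E_Hinc (hS : X.TSt S) (hT : X.TSt T) (hS' : X.TSt S') (hT' : X.TSt T') (i : S ≤ S')
    (j : T ≤ T') (n : ℕ) (x : H S T (n + 1)) :
    X.E hS' hT' n (Hinc i j (n + 1) x) = Hinc i j n (X.E hS hT n x) := by
  obtain ⟨c, hc, rfl⟩ := H.exists_mk x
  rfl

theorem V_Hdel (hR : X.TSt R) (hS : X.TSt S) (hT : X.TSt T) (n : ℕ) (x : H R S n) :
    X.V hS hT (n + 1) (Hdel R S T n x) = Hdel R S T (n + 1) (X.V hR hS n x) := by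
  obtain ⟨c, hc, rfl⟩ := H.exists_mk x
  exact mk_congr (D := G.Tot) (x := X.Vop (n + 1) (G.D n c)) (y := G.D (n + 1) (X.Vop n c))
    (X.D_Vop n c).symm _ _

theorem E_Hdel (hR : X.TSt R) (hS : X.TSt S) (hT : X.TSt T) (n : ℕ) (x : H R S (n + 1)) :
    X.E hS hT (n + 1) (Hdel R S T (n + 1) x) = - Hdel R S T n (X.E hR hS n x) := by
  obtain ⟨c, hc, rfl⟩ := H.exists_mk x
  have e : X.Eop (n + 1) (G.D (n + 1) c) = - G.D n (X.Eop n c) := by
    rw [X.D_Eop, neg_neg]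
  exact mk_congr (D := G.Tot) (x := X.Eop (n + 1) (G.D (n + 1) c)) (y := - G.D n (X.Eop n c))
    e _ _

/-- restriction -/
def incK (hS : X.TSt S) (hT : X.TSt T) (hS' : X.TSt S') (hT' : X.TSt T') (i : S ≤ S')
    (j : T ≤ T') (n : ℕ) : X.kV hS hT n →ₗ[k] X.kV hS' hT' n :=
  (Hinc i j (n + 1)).restrict fun x hx => by
    rw [mem_kV, V_Hinc X hS hT, (X.mem_kV hS hT).mp hx, map_zero]

@[simp] theorem incK_coe (hS : X.TSt S) (hT : X.TSt T) (hS' : X.TSt S') (hT' : X.TSt T')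
    (i : S ≤ S') (j : T ≤ T') (n : ℕ) (x : X.kV hS hT n) :
    (X.incK hS hT hS' hT' i j n x : H S' T' (n + 1)) = Hinc i j (n + 1) x.1 := rfl

/-- connecting map -/
def delK (hR : X.TSt R) (hS : X.TSt S) (hT : X.TSt T) (n : ℕ) :
    X.kV hR hS n →ₗ[k] X.kV hS hT (n + 1) :=
  (Hdel R S T (n + 1)).restrict fun x hx => by
    rw [mem_kV, V_Hdel X hR hS hT, (X.mem_kV hR hS).mp hx, map_zero]

@[simp] theorem delK_coe (hR : X.TSt R) (hS : X.TSt S) (hT : X.TSt T) (n : ℕ)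
    (x : X.kV hR hS n) :
    (X.delK hR hS hT n x : H S T (n + 1 + 1)) = Hdel R S T (n + 1) x.1 := rfl

variable (hR : X.TSt R) (hS : X.TSt S) (hT : X.TSt T) (hTS : T ≤ S) (hSR : S ≤ R)

include hTS hSR

/-- Exactness of `F (S / T) → F (R / T) → F (R / S)`. -/
theorem exact_midK (n : ℕ) : Function.Exact (X.incK hS hT hR hT hSR le_rfl n)
    (X.incK hR hT hR hS le_rfl hTS n) := by
  intro x
  constructor
  · intro hx
    have h1 : Hinc le_rfl hTS (n + 1) x.1 = 0 := congrArg Subtype.val hx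
    obtain ⟨z, hz⟩ := (exact_mid hTS hSR x.1).mp h1
    obtain ⟨w, hw⟩ := exists_of_exact (VA := X.V hS hT n) (EA := X.E hS hT n)
      (VB := X.V hR hT n) (EB := X.E hR hT n) (f₀ := Hinc hSR le_rfl n)
      (f₁ := Hinc hSR le_rfl (n + 1)) (a := 1) (b := 1)
      (fun y => by rw [one_smul, V_Hinc]) (fun y => by rw [one_smul, E_Hinc])
      (X.exists_V_of hR hT n x.1 ((X.mem_kV hR hT).mp x.2)) hz
    exact ⟨⟨X.V hS hT n w, X.V_mem_kV hS hT w⟩, Subtype.ext hw⟩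
  · rintro ⟨y, rfl⟩
    exact Subtype.ext ((exact_mid hTS hSR _).mpr ⟨y.1, rfl⟩)

/-- Exactness of `F (R / T) → F (R / S) → F (S / T) (n + 1)`. -/
theorem exact_delK (n : ℕ) : Function.Exact (X.incK hR hT hR hS le_rfl hTS n)
    (X.delK hR hS hT n) := by
  intro x
  constructor
  · intro hx
    have h1 : Hdel R S T (n + 1) x.1 = 0 := congrArg Subtype.val hx
    obtain ⟨z, hz⟩ := (exact_del hTS hSR x.1).mp h1
    obtain ⟨w, hw⟩ := exists_of_exact (VA := X.V hR hT n) (EA := X.E hR hT n)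
      (VB := X.V hR hS n) (EB := X.E hR hS n) (f₀ := Hinc le_rfl hTS n)
      (f₁ := Hinc le_rfl hTS (n + 1)) (a := 1) (b := 1)
      (fun y => by rw [one_smul, V_Hinc]) (fun y => by rw [one_smul, E_Hinc])
      (X.exists_V_of hR hS n x.1 ((X.mem_kV hR hS).mp x.2)) hz
    exact ⟨⟨X.V hR hT n w, X.V_mem_kV hR hT w⟩, Subtype.ext hw⟩
  · rintro ⟨y, rfl⟩
    exact Subtype.ext ((exact_del hTS hSR _).mpr ⟨y.1, rfl⟩)

/-- Exactness of `F (R / S) n → F (S / T) (n + 1) → F (R / T) (n + 1)`. -/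
theorem exact_incK (n : ℕ) : Function.Exact (X.delK hR hS hT n)
    (X.incK hS hT hR hT hSR le_rfl (n + 1)) := by
  intro x
  constructor
  · intro hx
    have h1 : Hinc hSR le_rfl (n + 1 + 1) x.1 = 0 := congrArg Subtype.val hx
    obtain ⟨z, hz⟩ := (exact_inc hTS hSR x.1).mp h1
    obtain ⟨w, hw⟩ := exists_of_exact (VA := X.V hR hS n) (EA := X.E hR hS n)
      (VB := X.V hS hT (n + 1)) (EB := X.E hS hT (n + 1)) (f₀ := Hdel R S T n)
      (f₁ := Hdel R S T (n + 1)) (a := 1) (b := -1)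
      (fun y => by rw [one_smul, V_Hdel X hR hS hT])
      (fun y => by rw [neg_one_smul, E_Hdel X hR hS hT])
      (X.exists_V_of hS hT (n + 1) x.1 ((X.mem_kV hS hT).mp x.2)) hz
    exact ⟨⟨X.V hR hS n w, X.V_mem_kV hR hS w⟩, Subtype.ext hw⟩
  · rintro ⟨y, rfl⟩
    exact Subtype.ext ((exact_inc hTS hSR _).mpr ⟨y.1, rfl⟩)

end Circ

end Vale.Agent.P216.DV
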