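import Vale.Agent.P216.DV706.TInst
import Vale.Agent.P216.H670.Rel
import Vale.Agent.P216.B633.AdaptG
import Vale.Agent.P216.B609.Base0
import Vale.Agent.P216.Hol.DC
import Vale.Agent.P216.B609.FinB
import Vale.Agent.P216.B609.Sheet
import Vale.Agent.P216.B64.Goals
import Vale.Agent.P216.H804.D6
import Vale.Agent.P216.GM.TW

/-!
# The instance `PSysB` (Theorem B, block B22)

`S0 G hD` = the `GSys` of `M` with the trivial double cover.  `xiso` = its cohomology is the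
cohomology of the sublevels of the free loop space.  `psysB` = the system `PSysB` for all odd
primes, for `n = 0, 3 (mod 4)`.
-/

open Set Topology
open Module (finrank)
open Vale.Agent.P216.H288 Vale.Agent.P216.H494 Vale.Agent.P216.L250

namespace Vale.Agent.P216.DV706

open AS GM B64 B633 B609

section

variable {M : Type} [MetricSpace M] [CompactSpace M] (G : GeoList M)
  (hD : DescentStmt (Hol.triv : Hol M) G)

/-- the `GSys` with the trivial double cover -/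
noncomputable abbrev S0 : GSys (LM M × ℂ) := mkGSys Hol.triv G hD

/-- its real rotations -/
noncomputable abbrev R0 : RotS (S0 G hD) := rotSMk Hol.triv G hD

section

variable (k : Type) [Field k] {p : ℕ} [CharP k p] (hp : p.Prime) (h2 : 2 < p)
  (hf : RotS.FinAt (S0 G hD) k)

/-- its level-wise system -/
noncomputable abbrev T0 : TSys k p (Crit G.ℓ) := (R0 G hD).tsys k hp h2 hf

/-- **The cohomology of the level-wise system is the cohomology of the sublevels of the loop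
space.** -/
noncomputable def xiso : XIso M (T0 G hD k hp h2 hf) where
  φ t q := phi G hD k t q
  nat q _ _ h x := phi_res G hD h q x
  rev t q x := phi_rH G hD hp.pos t q x

end

include hD in
theorem exists_reg (s t : ℝ) (h : s < t) : ∃ x ∈ Ioo s t, x ∉ Crit G.ℓ := by
  obtain ⟨x, hx, hx'⟩ := (S0 G hD).exists_reg_level (a := (2 * s + t) / 3) (b := (s + 2 * t) / 3)
    (by linarith)
  exact ⟨x, ⟨by linarith [hx.1], by linarith [hx.2]⟩, hx'⟩

/-- finiteness at all regular levels -/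
theorem finAt (hL : (S0 G hD).LevelBound) (h0 : (S0 G hD).BaseFin) (p : ℕ) [Fact p.Prime]
    (hp : 2 < p) : RotS.FinAt (S0 G hD) (ZMod p) := fun s hs hsc =>
  (S0 G hD).finite_of_levelBound hL h0 p hp s hs hsc

theorem stableBars (hL : (S0 G hD).LevelBound) (h0 : (S0 G hD).BaseFin) {q : ℕ} {e : ℕ → ℕ}
    {σ : ℤ} {B : ℝ} (hB : 0 < B)
    (hX : ∀ (k : Type) [Field k], (2 : k) ≠ 0 → Nonempty (XGen M q e σ B k)) :
    (S0 G hD).StableBars B := by
  intro p hpp h2 s t hs h h' i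
  obtain ⟨X⟩ := hX (ZMod p) (GSys.two_ne_zero' h2)
  exact (xiso G hD (ZMod p) hpp.out h2 (finAt G hD hL h0 p h2)).stableG X hB hs.le h
    (h.trans h') i

/-- the field `rel` -/
theorem rel (p : ℕ) [hpp : Fact p.Prime] (h2 : 2 < p) (hf : RotS.FinAt (S0 G hD) (ZMod p))
    (s t : ℝ) (h : s ≤ t) (hs : 0 < s) (hsc : s ∉ Crit G.ℓ) (htc : t ∉ Crit G.ℓ)
    (h1 : (Crit G.ℓ ∩ Ioo s t).Subsingleton) :
    Nonempty (T695.RelSeq (ZMod p) ((T0 G hD (ZMod p) hpp.out h2 hf).F t)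
      ((T0 G hD (ZMod p) hpp.out h2 hf).F s)
      (fun i => ((T0 G hD (ZMod p) hpp.out h2 hf).TF i).ρ s t h)
      ((T0 G hD (ZMod p) hpp.out h2 hf).I t).rF ((T0 G hD (ZMod p) hpp.out h2 hf).I s).rF) :=
  (R0 G hD).rel_nonempty p hpp.out.pos h2 (fun t ht htc => (hf t ht htc).1) h hs hsc htc h1

/-- **The instance.** `σ = 1`, or `σ = -1` and the cohomology of a low level is in even
degrees. -/
theorem psysB (hL : (S0 G hD).LevelBound) (h0 : (S0 G hD).BaseFin) {q : ℕ} {e : ℕ → ℕ} {σ : ℤ}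
    {B : ℝ} (hB : 0 < B) (hq : q < 2)
    (hσ : σ = 1 ∨ (σ * σ = 1 ∧ ∃ t₀ : ℝ, 0 ≤ t₀ ∧ (XL M t₀).Nonempty ∧ ∀ (k : Type) [Field k],
      ∀ i, i % 2 = 1 → Subsingleton ((S0 G hD).V k t₀ i)))
    (hX : ∀ (k : Type) [Field k], (2 : k) ≠ 0 → Nonempty (XGen M q e σ B k)) :
    ∃ (K : ℕ) (B0 B1 : ℝ), ∀ p : ℕ, p.Prime → 2 < p → ∃ (k : Type) (_ : Field k),
      Nonempty (T695.PSysB k p (Crit G.ℓ) K B0 B1) := by
  obtain ⟨K, hK⟩ := (S0 G hD).bars_of_levelBound hL hB.le (stableBars G hD hL h0 hB hX) h0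
  obtain ⟨a, ha⟩ := exists_regCof (exists_reg G hD)
  refine ⟨K, B, B, fun p hp h2 => ⟨ZMod p, @ZMod.instField p ⟨hp⟩, ?_⟩⟩
  have hpp : Fact p.Prime := ⟨hp⟩
  obtain ⟨X⟩ := hX (ZMod p) (GSys.two_ne_zero' h2)
  have hf := finAt G hD hL h0 p h2
  have Φ := xiso G hD (ZMod p) hp h2 hf
  have hσ' : σ = 1 ∨ (σ * σ = 1 ∧ ∃ t₀ : ℝ, (∀ i, i % 2 = 1 →
      Subsingleton ((T0 G hD (ZMod p) hp h2 hf).H t₀ i)) ∧ X.g 0 t₀ ≠ 0) := by
    rcases hσ with h | ⟨h, t₀, ht₀, hne, h3⟩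
    · exact Or.inl h
    · exact Or.inr ⟨h, t₀, fun i hi => h3 (ZMod p) i hi, g0_neG X hB ht₀ hne⟩
  refine ⟨(T0 G hD (ZMod p) hp h2 hf).toPSysB hp.pos ha
    (Φ.restG X ha (GSys.two_ne_zero' h2) hq hB hσ' (K := K) ?_ ?_ ?_ ?_) (Φ.birthsG X hB)⟩
  · exact fun t ht htc => (hf t ht htc).2
  · exact fun t ht htc m T h hT => hK p hpp h2 t ht htc T h hT m
  · exact fun s t h hs hc i => (S0 G hD).res_bijective hs h hc ((S0 G hD).mono s t h) i
  · exact fun s t h hs hsc htc h1 => rel G hD p h2 hf s t h hs hsc htc h1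

omit [CompactSpace M] in
theorem XL_nonempty (x : M) (t : ℝ) : (XL M t).Nonempty :=
  ⟨_, XE_mono le_rfl (le_max_right _ _) (mem_XE_zero.2 ⟨x, rfl⟩)⟩

end

/-- **B22**: the instance for the spheres of dimension `n ≠ 1 (mod 4)`. -/
theorem pGoal : PGoal := by
  intro n hn hn4 M _ _ ρ hρ hs hLOC e G B hB hX
  obtain ⟨e⟩ := e
  have hD := descentStmt (Hol.triv : Hol M) G hρ hs
  refine psysB G hD (GM.levelBound (GM.f1 hρ hs) hLOC GM.tw Hol.triv G hD) (baseFin G hD e) hB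
    (q := (n - 1) % 2) (e := fun i => kk n i * (n - 1)) (σ := sgn4 n) (Nat.mod_lt _ two_pos) ?_
    fun k _ h2 => ?_
  · by_cases h : n % 4 = 0 ∨ n % 4 = 3
    · left
      unfold sgn4
      rw [if_pos h]
    · right
      refine ⟨by unfold sgn4; rw [if_neg h]; norm_num, ?_⟩
      obtain ⟨s₀, hs₀, _, h3⟩ := base0 G hD e
      have : Nonempty (Sph n) := (NormedSpace.sphere_nonempty.2 zero_le_one).to_subtype
      obtain ⟨y⟩ := this
      exact ⟨s₀, hs₀.le, XL_nonempty (e.symm y) s₀, fun k _ i hi =>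
        (h3 k i).2 (by omega) (by omega)⟩
  · obtain ⟨X⟩ := hX k h2
    exact ⟨X.toXGen hn hn4⟩

end Vale.Agent.P216.DV706
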