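import Vale.Agent.P216.DV706.Inst
import Vale.Agent.P216.DV706.Nat
import Vale.Agent.P216.H670.CircG
import Vale.Agent.P216.H941.LocGys
import Vale.Agent.P216.B633.Inf

/-!
# The groups `F` of a `GSys` with real rotations: the fields of `TSys` (`B633/Inf`)

For `R : RotS S` (file `H670/CircG`), `k` a field of characteristic `p`, `p > 2` prime:
`R.F k hp h2 t n` = `H^n_{S¹}(X_t; k)`, `R.TF`, `R.gys`, `R.L` and their naturality.
-/

open Set

namespace Vale.Agent.P216.DV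

open Vale.Agent.P216.AS

variable {k : Type} [Field k] {C C' : Amb k} {G : GCx C} {G' : GCx C'}

/-! ### Bijective maps of pairs -/

namespace Circ.PSt

variable {X : Circ G} {X' : Circ G'} {P : G.Pair} {P' : G'.Pair}
  {φ : ∀ n, C.K n →ₗ[k] C'.K n} (h : X.PSt P) (h' : X'.PSt P') (hφ : IsGMor P P' φ)
    (hA : ∀ {n x}, x ∈ P.S.S n → X'.A n (φ n x) - φ n (X.A n x) ∈ P'.T.S n)

/-- `mapF` is bijective if `FF → FF` is. -/
theorem mapF_bijective (hb : ∀ n, Function.Bijective (hφ.mapF n)) (n : ℕ) :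
    Function.Bijective (mapF h h' hφ hA n) := by
  refine ⟨fun x y hxy => Subtype.ext ((hb (n + 1)).1 ?_), fun y => ?_⟩
  · have := congrArg Subtype.val hxy
    exact this
  · obtain ⟨x, hx⟩ := (hb (n + 1)).2 y.1
    have hxF : x ∈ h.F n := by
      rw [mem_F]
      refine (hb (n + 2)).1 ?_
      rw [← VF_mapF h h' hφ hA, hx, map_zero]
      exact h'.mem_F.mp y.2
    exact ⟨⟨x, hxF⟩, Subtype.ext hx⟩

theorem mapF_bijective' (hb : ∀ n, Function.Bijective (hφ.mapH n)) (n : ℕ) :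
    Function.Bijective (mapF h h' hφ hA n) :=
  mapF_bijective h h' hφ hA (hφ.mapF_bijective hb) n

section Res

variable {P Q R : G.Pair} (h : X.PSt P) (h' : X.PSt Q) (h'' : X.PSt R) (hS : P.S ≤ Q.S)
  (hT : P.T ≤ Q.T)

theorem resF_bijective (hb : ∀ n, Function.Bijective (GCx.Pair.resH hS hT n)) (n : ℕ) :
    Function.Bijective (resF h h' hS hT n) :=
  mapF_bijective' h h' (IsGMor.id_of_le hS hT) (fun {n x} _ => comm_id n x) (fun n => hb n) n

theorem resF_refl (hS : P.S ≤ P.S) (hT : P.T ≤ P.T) (n : ℕ) (x : h.F n) :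
    resF h h hS hT n x = x := by
  refine Subtype.ext ?_
  rw [resF_coe]
  obtain ⟨c, hc, h1⟩ := H.exists_mk x.1
  rw [← h1]
  rfl

theorem resF_resF (hS' : Q.S ≤ R.S) (hT' : Q.T ≤ R.T) (hS'' : P.S ≤ R.S) (hT'' : P.T ≤ R.T)
    (n : ℕ) (x : h.F n) :
    resF h' h'' hS' hT' n (resF h h' hS hT n x) = resF h h'' hS'' hT'' n x := by
  refine Subtype.ext ?_
  rw [resF_coe, resF_coe, resF_coe]
  obtain ⟨c, hc, h1⟩ := H.exists_mk x.1
  rw [← h1]
  rfl

end Res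

end Circ.PSt

end Vale.Agent.P216.DV

namespace Vale.Agent.P216.RotS

open AS B633 DV Circ.PSt

variable {Λ : Type} [PseudoMetricSpace Λ] {S : GSys Λ} (R : RotS S)
  (k : Type) [Field k] {p : ℕ} [CharP k p] (hp : p.Prime) (h2 : 2 < p)

/-- `H^n_{S¹}(X_t; k)` -/
noncomputable abbrev F (t : ℝ) (n : ℕ) : Submodule k ((S.P k p hp.pos t).FF (n + 1)) :=
  (R.pst k p hp.pos h2 t).F n

/-- the Gysin sequence at the level `t` -/
noncomputable abbrev gys (t : ℝ) : USeq k (fun n => R.F k hp h2 t n) (fun n => S.V k t n) :=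
  (R.pst k p hp.pos h2 t).gys

omit [CharP k p] in
theorem le_S {s t : ℝ} (h : s ≤ t) : (S.P k p hp.pos t).S ≤ (S.P k p hp.pos s).S :=
  Cc_anti (S.mono s t h)

omit [CharP k p] in
theorem le_T {s t : ℝ} (h : s ≤ t) : (S.P k p hp.pos t).T ≤ (S.P k p hp.pos s).T :=
  Zr_anti (S.mono s t h) (S.mono s t h)

/-- the tower of the `H^n(X_t)` -/
noncomputable def TH (S : GSys Λ) (k : Type) [Field k] (n : ℕ) : Tower k fun t => S.V k t n where
  ρ s t h := AS.res (S.mono s t h) n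
  ρ_id _ x := AS.res_refl _ x
  ρ_ρ _ _ _ _ _ x := AS.res_res _ _ x

/-- the tower of the `H^n_{S¹}(X_t)` -/
noncomputable def TF (n : ℕ) : Tower k fun t => R.F k hp h2 t n where
  ρ s t h := resF (R.pst k p hp.pos h2 t) (R.pst k p hp.pos h2 s) (le_S k hp h) (le_T k hp h) n
  ρ_id _ x := resF_refl _ _ _ n x
  ρ_ρ _ _ _ _ _ x := resF_resF _ _ _ _ _ _ _ _ _ n x

theorem TF_ρ_coe {s t : ℝ} (h : s ≤ t) (n : ℕ) (x : R.F k hp h2 t n) :
    ((R.TF k hp h2 n).ρ s t h x : (S.P k p hp.pos s).FF (n + 1)) =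
      GCx.Pair.resF (P := S.P k p hp.pos t) (P' := S.P k p hp.pos s)
        (Cc_anti (S.mono s t h)) (Zr_anti (S.mono s t h) (S.mono s t h)) (n + 1) x.1 :=
  resF_coe _ _ _ _ n x

theorem ρ_u (n : ℕ) (s t : ℝ) (h : s ≤ t) (x : R.F k hp h2 t n) :
    (R.TF k hp h2 (n + 2)).ρ s t h ((R.gys k hp h2 t).u n x) =
      (R.gys k hp h2 s).u n ((R.TF k hp h2 n).ρ s t h x) :=
  (uF_resF (R.pst k p hp.pos h2 t) (R.pst k p hp.pos h2 s) (le_S k hp h) (le_T k hp h) n x).symm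

theorem ρ_π (n : ℕ) (s t : ℝ) (h : s ≤ t) (x : R.F k hp h2 t n) :
    (TH S k n).ρ s t h ((R.gys k hp h2 t).π n x) =
      (R.gys k hp h2 s).π n ((R.TF k hp h2 n).ρ s t h x) :=
  (πF_resF (R.pst k p hp.pos h2 t) (R.pst k p hp.pos h2 s) (le_S k hp h) (le_T k hp h) n x).symm

theorem ρ_d (n : ℕ) (s t : ℝ) (h : s ≤ t) (x : S.V k t (n + 1)) :
    (R.TF k hp h2 n).ρ s t h ((R.gys k hp h2 t).d n x) =
      (R.gys k hp h2 s).d n ((TH S k (n + 1)).ρ s t h x) :=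
  (dF_resH (R.pst k p hp.pos h2 t) (R.pst k p hp.pos h2 s) (le_S k hp h) (le_T k hp h) n x).symm

/-- If `H(X_t) → H(X_s)` is bijective then so is `F(X_t) → F(X_s)`. -/
theorem TF_bijective {s t : ℝ} (h : s ≤ t)
    (hb : ∀ n, Function.Bijective (AS.res (k := k) (a := fun _ : Unit => S.τ)
      (χ := fun _ : Unit => (-1 : k)) (S.mono s t h) n)) (n : ℕ) :
    Function.Bijective ((R.TF k hp h2 n).ρ s t h) :=
  resF_bijective (R.pst k p hp.pos h2 t) (R.pst k p hp.pos h2 s) (le_S k hp h) (le_T k hp h)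
    (fun n => hb n) n

end Vale.Agent.P216.RotS

namespace Vale.Agent.P216.RotS

open AS B633 DV Circ.PSt

variable {Λ : Type} [MetricSpace Λ] {S : GSys Λ} (R : RotS S)
  (k : Type) [Field k] {p : ℕ} [CharP k p] (hp : p.Prime) (h2 : 2 < p)

/-- `B` preserves the cochains vanishing on the fixed set. -/
theorem circ_B_CFix (t : ℝ) (q : ℕ) (x : (ASK Λ k).K q) (hx : x ∈ S.CFix k p t q) :
    (R.circ k p hp.pos h2).B q x ∈ S.CFix k p t q :=
  sumK_mem (S.sym k p hp.pos) _ (fun y hy => (S.CFix_stable k hp h2 t).g_mem _ y hy) hx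

/-- **The field `L`.** -/
noncomputable def L {t : ℝ} (ht : 0 ≤ t) (hfin : ∀ j, Module.Finite k (S.V k (t / p) j))
    (htop : ∃ N, ∀ j ≥ N, Subsingleton (S.V k t j))
    (htop' : ∃ N, ∀ j ≥ N, Subsingleton (S.V k (t / p) j)) :
    T695.Loc k (fun n => R.F k hp h2 t n) (fun j => S.V k (t / p) j) (R.gys k hp h2 t).u :=
  S.locGys hp h2 ht (R.pst k p hp.pos h2 t) (R.circ_B_CFix k hp h2 t) hfin htop htop'

/-- **The field `ℓ_ρ`.** -/
theorem ℓ_ρ {s t : ℝ} (hs : 0 ≤ s) (ht : 0 ≤ t) (hst : s ≤ t) (h' : s / p ≤ t / p)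
    (hfin : ∀ j, Module.Finite k (S.V k (t / p) j))
    (htop : ∃ N, ∀ j ≥ N, Subsingleton (S.V k t j))
    (htop' : ∃ N, ∀ j ≥ N, Subsingleton (S.V k (t / p) j))
    (hfins : ∀ j, Module.Finite k (S.V k (s / p) j))
    (htops : ∃ N, ∀ j ≥ N, Subsingleton (S.V k s j))
    (htops' : ∃ N, ∀ j ≥ N, Subsingleton (S.V k (s / p) j)) (e j : ℕ) (x : R.F k hp h2 t e) :
    (R.L k hp h2 hs hfins htops htops').ℓ e j ((R.TF k hp h2 e).ρ s t hst x) =
      (TH S k j).ρ (s / p) (t / p) h' ((R.L k hp h2 ht hfin htop htop').ℓ e j x) :=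
  S.locGys_res hp h2 hs ht hst h' (R.pst k p hp.pos h2 t) (R.pst k p hp.pos h2 s) _ _ hfin htop
    htop' hfins htops htops' e j x _ (R.TF_ρ_coe k hp h2 hst e x)

end Vale.Agent.P216.RotS
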