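import Vale.Agent.P216.DV706.SLev

/-!
# The level-wise system `TSys` of a `GSys` with real rotations (Theorem B, block B22)
-/

open Set
open Module (finrank)

namespace Vale.Agent.P216.DV.Circ.PSt

open Vale.Agent.P216.AS

theorem resF_rk_eq {k : Type} [Field k] {C : Amb k} {G : GCx C} {X : Circ G} {P Q : G.Pair}
    {R : Rev G} (h : X.PSt P) (h' : X.PSt Q) (hS : P.S ≤ Q.S) (hT : P.T ≤ Q.T)
    (hR : P.RStable R) (hR' : Q.RStable R) (hA : X.RComp R) (n : ℕ) (x : h.F n) :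
    resF h h' hS hT n (h.rk hR hA n x) = h'.rk hR' hA n (resF h h' hS hT n x) := by
  refine Subtype.ext ?_
  rw [resF_coe, rk_coe, rk_coe, resF_coe, GCx.Pair.rF_resF hR, map_neg]

end Vale.Agent.P216.DV.Circ.PSt

namespace Vale.Agent.P216.RotS

open AS B633 DV Circ.PSt

section

variable {Λ : Type} [PseudoMetricSpace Λ] {S : GSys Λ} (R : RotS S)
  (k : Type) [Field k] {p : ℕ} [CharP k p] (hp : p.Prime) (h2 : 2 < p)

/-- the reversal on the Gysin sequence -/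
noncomputable abbrev inv (t : ℝ) : Tight923.Inv (R.gys k hp h2 t) := R.gysInv k p hp.pos h2 t

theorem ρ_rF (n : ℕ) (s t : ℝ) (h : s ≤ t) (x : R.F k hp h2 t n) :
    (R.TF k hp h2 n).ρ s t h ((R.inv k hp h2 t).rF n x) =
      (R.inv k hp h2 s).rF n ((R.TF k hp h2 n).ρ s t h x) :=
  resF_rk_eq (R.pst k p hp.pos h2 t) (R.pst k p hp.pos h2 s) (le_S k hp h) (le_T k hp h)
    (S.P_rstable k p hp.pos t) (S.P_rstable k p hp.pos s) (R.rcomp k p hp.pos h2) n x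

theorem ρ_rE (n : ℕ) (s t : ℝ) (h : s ≤ t) (x : S.V k t n) :
    (TH S k n).ρ s t h ((R.inv k hp h2 t).rE n x) =
      (R.inv k hp h2 s).rE n ((TH S k n).ρ s t h x) :=
  (GCx.Pair.rH_resH (P := S.P k p hp.pos t) (P' := S.P k p hp.pos s)
    (S.P_rstable k p hp.pos t) (S.P_rstable k p hp.pos s) (le_S k hp h) (le_T k hp h) n x).symm

omit k [Field k] [CharP k p] hp h2 R in
include hp in
theorem div_not_crit {t : ℝ} (ht : t ∉ Crit S.ℓ) : t / p ∉ Crit S.ℓ := by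
  rintro ⟨i, m, hm, h⟩
  have hp0 : (p : ℝ) ≠ 0 := by exact_mod_cast hp.ne_zero
  refine ht ⟨i, p * m, Nat.mul_pos hp.pos hm, ?_⟩
  rw [div_eq_iff hp0] at h
  rw [h]
  push_cast
  ring

end

section

variable {Λ : Type} [MetricSpace Λ] {S : GSys Λ} (R : RotS S)
  (k : Type) [Field k] {p : ℕ} [CharP k p] (hp : p.Prime) (h2 : 2 < p)

/-- Finiteness at all regular levels (the form of `GSys.finite_of_levelBound`). -/
def FinAt (S : GSys Λ) (k : Type) [Field k] : Prop := ∀ s : ℝ, 0 < s → s ∉ Crit S.ℓ →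
  (∀ n, Module.Finite k (S.V k s n)) ∧ ∃ N, ∀ n ≥ N, Subsingleton (S.V k s n)

variable (hf : FinAt S k)

omit R [CharP k p] in
include hf hp in
theorem FinAt.div {t : ℝ} (h0 : 0 < t) (ht : t ∉ Crit S.ℓ) :
    (∀ n, Module.Finite k (S.V k (t / p) n)) ∧ ∃ N, ∀ n ≥ N, Subsingleton (S.V k (t / p) n) :=
  hf _ (div_pos h0 (by exact_mod_cast hp.pos)) (div_not_crit hp ht)

/-- **The level-wise system.** -/
noncomputable def tsys : TSys k p (Crit S.ℓ) where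
  H t n := S.V k t n
  F t n := R.F k hp h2 t n
  TH n := TH S k n
  TF n := R.TF k hp h2 n
  G t := R.gys k hp h2 t
  I t := R.inv k hp h2 t
  ρ_u := R.ρ_u k hp h2
  ρ_π := R.ρ_π k hp h2
  ρ_d := R.ρ_d k hp h2
  ρ_rF := R.ρ_rF k hp h2
  ρ_rE := R.ρ_rE k hp h2
  finH t h0 ht n := (hf t h0 ht).1 n
  L t h0 ht := R.L k hp h2 h0.le (FinAt.div k hp hf h0 ht).1 (hf t h0 ht).2
    (FinAt.div k hp hf h0 ht).2
  ℓ_ρ _ _ hs0 _ ht0 _ h h' e j x := R.ℓ_ρ k hp h2 hs0.le ht0.le h h' _ _ _ _ _ _ e j x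

end

end Vale.Agent.P216.RotS
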